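import Mathlib

/-!
# P128 regularity: a monotone function with `D ≤ 0.51 s D' + β s²` decays like `s^{3/2}`

The inequality is allowed to fail on a set seen by a function `B` of small integral.
-/

open MeasureTheory Set Metric Filter
open scoped ENNReal Topology Real

noncomputable section

namespace Vale.Agent.P128.Regularity.Decay

variable {D D' : ℝ → ℝ} {B : ℝ → ℝ≥0∞} {S β : ℝ}

/-- One step of the iteration. -/
theorem decay_step (hβ : 0 ≤ β) (hmono : MonotoneOn D (Ioc 0 S)) (hD' : Measurable D')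
    (hint : ∀ a b : ℝ, 0 < a → a < b → b ≤ S →
      ∫⁻ s in Ioo a b, ENNReal.ofReal (D' s) ≤ ENNReal.ofReal (D b - D a))
    (hB : ∀ t ∈ Ioc 0 S, ∫⁻ s in Ioo 0 t, B s ≤ ENNReal.ofReal (t / 1000))
    (hgood : ∀ᵐ s ∂volume.restrict (Ioo 0 S),
      1 ≤ B s ∨ D s ≤ 51 / 100 * s * D' s + β * s ^ 2)
    (h0 : ∀ s ∈ Ioc 0 S, 0 ≤ D s) {t : ℝ} (ht : t ∈ Ioc 0 S) :
    D (9 * t / 10) ≤ 8375 / 10000 * D t + β * t ^ 2 := by
  obtain ⟨ht0, htS⟩ := ht
  set v := 9 * t / 10 with hv
  have hv0 : 0 < v := by positivity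
  have hvt : v < t := by rw [hv]; linarith
  have hbt : 0 ≤ β * t ^ 2 := by positivity
  have hDt := h0 t ⟨ht0, htS⟩
  rcases le_or_gt (D v) (β * t ^ 2) with hsmall | hlarge
  · linarith
  have hmv : D v ≤ D t := hmono ⟨hv0, hvt.le.trans htS⟩ ⟨ht0, htS⟩ hvt.le
  set c := (D v - β * t ^ 2) / (51 / 100 * t) with hc
  have hc0 : 0 ≤ c := div_nonneg (by linarith) (by positivity)
  have hpt : ∀ᵐ s ∂volume.restrict (Ioo v t),
      ENNReal.ofReal c ≤ ENNReal.ofReal (D' s) + ENNReal.ofReal c * B s := by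
    filter_upwards [ae_mono (Measure.restrict_mono
      (show Ioo v t ⊆ Ioo 0 S from Ioo_subset_Ioo hv0.le htS) le_rfl) hgood,
      ae_restrict_mem measurableSet_Ioo] with s hs hsI
    rcases hs with h1 | h2
    · calc ENNReal.ofReal c = ENNReal.ofReal c * 1 := (mul_one _).symm
        _ ≤ ENNReal.ofReal c * B s := mul_le_mul_right h1 _
        _ ≤ _ := le_add_self
    · have hs0 : 0 < s := hv0.trans hsI.1
      have hDs : D v ≤ D s :=
        hmono ⟨hv0, hvt.le.trans htS⟩ ⟨hs0, hsI.2.le.trans htS⟩ hsI.1.le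
      have hst : β * s ^ 2 ≤ β * t ^ 2 :=
        mul_le_mul_of_nonneg_left (pow_le_pow_left₀ hs0.le hsI.2.le 2) hβ
      have h3 : 0 ≤ D' s := by
        by_contra hneg
        have : 51 / 100 * s * D' s < 0 := mul_neg_of_pos_of_neg (by positivity) (not_le.1 hneg)
        linarith
      refine le_trans (ENNReal.ofReal_le_ofReal ?_) le_self_add
      rw [hc, div_le_iff₀ (by positivity)]
      nlinarith [mul_le_mul_of_nonneg_left hsI.2.le h3]
  have h1 : ENNReal.ofReal c * ENNReal.ofReal (t - v) ≤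
      ENNReal.ofReal (D t - D v) + ENNReal.ofReal c * ENNReal.ofReal (t / 1000) := by
    calc ENNReal.ofReal c * ENNReal.ofReal (t - v)
        = ∫⁻ _s in Ioo v t, ENNReal.ofReal c := by rw [setLIntegral_const, Real.volume_Ioo]
      _ ≤ ∫⁻ s in Ioo v t, (ENNReal.ofReal (D' s) + ENNReal.ofReal c * B s) :=
          lintegral_mono_ae hpt
      _ = (∫⁻ s in Ioo v t, ENNReal.ofReal (D' s)) + ∫⁻ s in Ioo v t, ENNReal.ofReal c * B s :=
          lintegral_add_left hD'.ennreal_ofReal _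
      _ ≤ _ := by
          rw [lintegral_const_mul' _ _ ENNReal.ofReal_ne_top]
          exact add_le_add (hint v t hv0 hvt htS) (mul_le_mul_right
            ((lintegral_mono_set (Ioo_subset_Ioo hv0.le le_rfl)).trans (hB t ⟨ht0, htS⟩)) _)
  rw [← ENNReal.ofReal_mul hc0, ← ENNReal.ofReal_mul hc0,
    ← ENNReal.ofReal_add (by linarith) (by positivity),
    ENNReal.ofReal_le_ofReal_iff (by positivity)] at h1
  have he : c * (t - v) - c * (t / 1000) = 33 / 170 * (D v - β * t ^ 2) := by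
    rw [hc, hv]; field_simp; ring
  linarith

/-- The decay. -/
theorem decay (hS : 0 < S) (hβ : 0 ≤ β) (h0 : ∀ s ∈ Ioc 0 S, 0 ≤ D s)
    (hmono : MonotoneOn D (Ioc 0 S)) (hD' : Measurable D')
    (hint : ∀ a b : ℝ, 0 < a → a < b → b ≤ S →
      ∫⁻ s in Ioo a b, ENNReal.ofReal (D' s) ≤ ENNReal.ofReal (D b - D a))
    (hB : ∀ t ∈ Ioc 0 S, ∫⁻ s in Ioo 0 t, B s ≤ ENNReal.ofReal (t / 1000))
    (hgood : ∀ᵐ s ∂volume.restrict (Ioo 0 S),
      1 ≤ B s ∨ D s ≤ 51 / 100 * s * D' s + β * s ^ 2) :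
    ∀ r ∈ Ioc 0 S, D r ≤ 2 * (D S / S + 100 * β * S) * r * Real.sqrt (r / S) := by
  set q := Real.sqrt (9 / 10) with hq
  have hq2 : q ^ 2 = 9 / 10 := Real.sq_sqrt (by norm_num)
  have hq0 : 0 < q := Real.sqrt_pos.2 (by norm_num)
  have hqb : 9486 / 10000 ≤ q := Real.le_sqrt_of_sq_le (by norm_num)
  set T := D S / S + 100 * β * S with hT
  have hDS := h0 S ⟨hS, le_rfl⟩
  have hT0 : 0 ≤ T := by positivity
  have hTb : 100 * β * S ≤ T := by rw [hT]; linarith [div_nonneg hDS hS.le]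
  have hmem : ∀ k : ℕ, S * (9 / 10) ^ k ∈ Ioc 0 S := fun k =>
    ⟨by positivity, mul_le_of_le_one_right hS.le (pow_le_one₀ (by norm_num) (by norm_num))⟩
  have key : ∀ k : ℕ, D (S * (9 / 10) ^ k) ≤ T * q ^ k * (S * (9 / 10) ^ k) := by
    intro k
    induction k with
    | zero =>
      simp only [pow_zero, mul_one]
      rw [hT, add_mul, div_mul_cancel₀ _ hS.ne']
      linarith [show 0 ≤ 100 * β * S * S by positivity]
    | succ k ih =>
      set t := S * (9 / 10) ^ k with ht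
      have hst : S * (9 / 10) ^ (k + 1) = 9 * t / 10 := by rw [ht]; ring
      rw [hst]
      refine (decay_step hβ hmono hD' hint hB hgood h0 (hmem k)).trans ?_
      have hp : (9 / 10 : ℝ) ^ k ≤ q ^ k := by
        refine pow_le_pow_left₀ (by norm_num) ?_ k
        linarith
      have h1 : β * t ^ 2 ≤ T / 100 * q ^ k * t := by
        calc β * t ^ 2 = β * S * (9 / 10) ^ k * t := by rw [ht]; ring
          _ ≤ T / 100 * q ^ k * t :=
              mul_le_mul_of_nonneg_right (mul_le_mul (by linarith) hp (by positivity)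
                (by linarith)) (hmem k).1.le
      have h2 : 0 ≤ T * q ^ k * t := mul_nonneg (by positivity) (hmem k).1.le
      calc 8375 / 10000 * D t + β * t ^ 2
          ≤ 8375 / 10000 * (T * q ^ k * t) + T / 100 * q ^ k * t :=
            add_le_add (mul_le_mul_of_nonneg_left ih (by norm_num)) h1
        _ ≤ q * (9 / 10) * (T * q ^ k * t) := by nlinarith
        _ = T * q ^ (k + 1) * (9 * t / 10) := by rw [pow_succ]; ring
  intro r hr
  obtain ⟨k, hk1, hk2⟩ := exists_nat_pow_near_of_lt_one (div_pos hr.1 hS) ((div_le_one hS).2 hr.2)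
    (show (0 : ℝ) < 9 / 10 by norm_num) (by norm_num)
  rw [lt_div_iff₀ hS] at hk1
  have hrk : r ≤ S * (9 / 10) ^ k := by rw [div_le_iff₀ hS] at hk2; linarith
  refine (hmono hr (hmem k) hrk).trans ((key k).trans ?_)
  set p : ℝ := (9 / 10) ^ k with hp
  have hp0 : 0 < p := by positivity
  have hqk : q ^ k = Real.sqrt p := by
    rw [eq_comm, Real.sqrt_eq_iff_eq_sq hp0.le (by positivity), hp, ← hq2, ← pow_mul, ← pow_mul,
      mul_comm]
  rw [pow_succ] at hk1
  have hpr : p ≤ 10 / 9 * (r / S) := by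
    have : p * 9 / 10 ≤ r / S := by rw [le_div_iff₀ hS]; linarith
    linarith
  have h3 : Real.sqrt p ≤ 11 / 10 * Real.sqrt (r / S) := by
    rw [show (11 / 10 : ℝ) * Real.sqrt (r / S) = Real.sqrt (121 / 100 * (r / S)) by
      rw [Real.sqrt_mul (by norm_num), show (121 / 100 : ℝ) = (11 / 10) ^ 2 by norm_num,
        Real.sqrt_sq (by norm_num)]]
    refine Real.sqrt_le_sqrt (hpr.trans ?_)
    nlinarith [div_pos hr.1 hS]
  have h4 : S * p ≤ 10 / 9 * r := by
    have : 10 / 9 * (r / S) * S = 10 / 9 * r := by field_simp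
    nlinarith
  rw [hqk]
  calc T * Real.sqrt p * (S * p)
      ≤ T * (11 / 10 * Real.sqrt (r / S)) * (10 / 9 * r) :=
        mul_le_mul (mul_le_mul_of_nonneg_left h3 hT0) h4 (by positivity) (by positivity)
    _ ≤ 2 * T * r * Real.sqrt (r / S) := by
        nlinarith [mul_nonneg (mul_nonneg hT0 hr.1.le) (Real.sqrt_nonneg (r / S))]

end Vale.Agent.P128.Regularity.Decay
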