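import Vale.Agent.P128.Regularity.Decay.Flux
import Vale.Agent.P128.Regularity.Decay.Real

/-!
# P128 regularity: energy decay from sectored circles
-/

open MeasureTheory Set Metric Filter
open scoped ENNReal NNReal Topology Real RealInnerProductSpace

noncomputable section

namespace Vale.Agent.P128.Regularity.Decay

open Vale.Agent.P128.Bridge

variable {U K : Set ℂ} {u : ℂ → ℝ} {G : ℂ → ℂ} {A M Λ : ℝ} {x : ℂ} {S : ℝ}

/-- If almost every circle is sectored, outside a set seen by a small `B`, the energy decays. -/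
theorem dball_decay (h : IsAlmostMin U K u G A M Λ) (hS : 0 < S) (hsub : closedBall x S ⊆ U)
    (B : ℝ → ℝ≥0∞) (hB : ∀ t ∈ Ioc 0 S, ∫⁻ s in Ioo 0 t, B s ≤ ENNReal.ofReal (t / 1000))
    (hgood : ∀ᵐ s ∂volume.restrict (Ioo 0 S), 1 ≤ B s ∨ Sectored K x s) :
    ∀ r ∈ Ioc 0 S, dball K G x r ≤
      ENNReal.ofReal (2 * (dirEn K G x S / S + 100 * (π * Λ) * S) * r * Real.sqrt (r / S)) := by
  have hd : ∀ r ∈ Ioc 0 S,
      dirEn K G x r ≤ 2 * (dirEn K G x S / S + 100 * (π * Λ) * S) * r * Real.sqrt (r / S) := by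
    refine decay (D' := radDens U K G x S) hS (mul_nonneg Real.pi_nonneg h.Lambda_nonneg)
      (fun s _ => ENNReal.toReal_nonneg) (fun a _ b hb hab => dirEn_mono h hsub hab hb.2)
      (measurable_radDens h) (fun a b ha hab hb => lintegral_radDens_le h hsub ha hab hb) hB ?_
    filter_upwards [hgood, ae_hasDerivAt h hsub, ae_restrict_mem measurableSet_Ioo]
      with s hs hs' hsI
    exact hs.imp_right fun hsec => sector_flux h hsub hsI hs'.1 hs'.2 hsec
  intro r hr
  rw [dball_eq h hsub hr.2]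
  exact ENNReal.ofReal_le_ofReal (hd r hr)

/-- The energy bound of a regime, in real form. -/
theorem dirEn_le {ε r : ℝ} (h : IsAlmostMin U K u G A M Λ) (hsub : closedBall x r ⊆ U)
    (hε : 0 ≤ ε * r) (hD : dball K G x r ≤ ENNReal.ofReal (ε * r)) : dirEn K G x r ≤ ε * r := by
  rw [dball_eq h hsub le_rfl] at hD
  exact (ENNReal.ofReal_le_ofReal_iff hε).1 hD

end Vale.Agent.P128.Regularity.Decay
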