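import Vale.Agent.P128.Regularity.Defs

/-!
# P128 regularity: a circle cut into labelled sectors of opening at most `1.02π`
-/

open MeasureTheory Set Metric Filter
open scoped ENNReal Topology Real RealInnerProductSpace

noncomputable section

namespace Vale.Agent.P128.Regularity.Decay

/-- The circle meets `K` finitely often, every direction is almost within a right angle of a
crossing, and a label tells the arcs apart from inside the disc. -/
structure Sectored (K : Set ℂ) (x : ℂ) (s : ℝ) : Prop where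
  fin : (K ∩ sphere x s).Finite
  spread : ∀ v : ℂ, ‖v‖ = 1 → ∃ p ∈ K ∩ sphere x s, -(3 / 100 * s) ≤ ⟪p - x, v⟫
  label : ∃ σ : ℂ → Fin 3, ContinuousOn σ (closedBall x s \ K) ∧
    ∀ y ∈ sphere x s \ K, ∀ w ∈ sphere x s \ K, σ y = σ w →
      w ∈ connectedComponentIn (sphere x s \ K) y

variable {K : Set ℂ} {x : ℂ} {s : ℝ}

theorem exists_angle {p : ℂ} (hs : 0 < s) (hp : p ∈ sphere x s) (a : ℝ) :
    ∃ θ ∈ Ico a (a + 2 * π), circleMap x s θ = p := by
  rw [← abs_of_pos hs, ← range_circleMap] at hp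
  obtain ⟨φ, rfl⟩ := hp
  obtain ⟨θ, hθ, he⟩ := (periodic_circleMap x s).exists_mem_Ico Real.two_pi_pos φ a
  exact ⟨θ, hθ, he.symm⟩

theorem exists_partition (hs : 0 < s) (hfin : (K ∩ sphere x s).Finite)
    (hne : (K ∩ sphere x s).Nonempty) : ∃ t m, IsPartition K x s t m := by
  classical
  set A : Set ℝ := Ico 0 (2 * π) ∩ circleMap x s ⁻¹' K with hA
  have hAf : A.Finite := by
    refine Set.Finite.of_finite_image (f := circleMap x s) (hfin.subset ?_)
      ((injOn_circleMap_of_abs_sub_le' hs.ne' (by linarith : 2 * π - 0 ≤ 2 * π)).mono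
        inter_subset_left)
    rintro _ ⟨θ, hθ, rfl⟩
    exact ⟨hθ.2, circleMap_mem_sphere x hs.le θ⟩
  set S := hAf.toFinset with hS
  have hSne : 0 < S.card := by
    obtain ⟨p, hp⟩ := hne
    obtain ⟨θ, hθ, he⟩ := exists_angle hs hp.2 0
    rw [zero_add] at hθ
    exact Finset.card_pos.2 ⟨θ, hAf.mem_toFinset.2 ⟨hθ, by rw [mem_preimage, he]; exact hp.1⟩⟩
  set e := S.orderEmbOfFin rfl with he
  set t0 : ℝ := e ⟨0, hSne⟩ with ht0
  have hmem : ∀ i : Fin S.card, e i ∈ A := fun i =>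
    hAf.mem_toFinset.1 (Finset.orderEmbOfFin_mem S rfl i)
  have hsurj : ∀ θ ∈ A, ∃ i : Fin S.card, e i = θ := fun θ hθ => by
    have h' : θ ∈ Set.range e := by
      rw [he, Finset.range_orderEmbOfFin S rfl]; exact hAf.mem_toFinset.2 hθ
    exact h'
  refine ⟨fun i => if hi : i < S.card then e ⟨i, hi⟩ else t0 + 2 * π, S.card, hSne, ?_, ?_⟩
  · simp [hSne, ← ht0]
  · intro i hi
    have h00 := (hmem ⟨0, hSne⟩).1
    have hi' := (hmem ⟨i, hi⟩).1
    simp only [dif_pos hi]
    refine ⟨?_, (hmem ⟨i, hi⟩).2⟩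
    by_cases hi1 : i + 1 < S.card
    · rw [dif_pos hi1]
      have hlt : e ⟨i, hi⟩ < e ⟨i + 1, hi1⟩ := e.strictMono (Fin.mk_lt_mk.2 (Nat.lt_succ_self i))
      have hj := (hmem ⟨i + 1, hi1⟩).1
      refine ⟨hlt, by linarith [hi'.1, hj.2], fun θ hθ hK => ?_⟩
      obtain ⟨j, hj'⟩ := hsurj θ ⟨⟨by linarith [hθ.1, hi'.1], by linarith [hθ.2, hj.2]⟩, hK⟩
      rw [← hj'] at hθ
      have h1 : i < (j : ℕ) := by simpa [Fin.lt_def] using e.lt_iff_lt.1 hθ.1
      have h2 : (j : ℕ) < i + 1 := by simpa [Fin.lt_def] using e.lt_iff_lt.1 hθ.2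
      omega
    · rw [dif_neg hi1]
      have hle : t0 ≤ e ⟨i, hi⟩ := e.monotone (Fin.mk_le_mk.2 (Nat.zero_le i))
      refine ⟨by linarith [hi'.2, h00.1], by linarith, fun θ hθ hK => ?_⟩
      rcases lt_or_ge θ (2 * π) with h2 | h2
      · obtain ⟨j, hj'⟩ := hsurj θ ⟨⟨by linarith [hθ.1, hi'.1], h2⟩, hK⟩
        rw [← hj'] at hθ
        have h1 : i < (j : ℕ) := by simpa [Fin.lt_def] using e.lt_iff_lt.1 hθ.1
        have := j.isLt
        omega
      · obtain ⟨j, hj'⟩ := hsurj (θ - 2 * π) ⟨⟨by linarith, by linarith [hθ.2, h00.2]⟩, by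
          rw [mem_preimage, (periodic_circleMap x s).sub_eq]; exact hK⟩
        have : t0 ≤ θ - 2 * π := hj' ▸ e.monotone (Fin.mk_le_mk.2 (Nat.zero_le (j : ℕ)))
        linarith [hθ.2]

theorem partition_le {t : ℕ → ℝ} {m : ℕ} (ht : IsPartition K x s t m) {i j : ℕ} (hij : i ≤ j)
    (hj : j ≤ m) : t i ≤ t j := by
  induction j, hij using Nat.le_induction with
  | base => exact le_rfl
  | succ j hij ih => exact (ih (by omega)).trans (ht.2.2 j (by omega)).1.1.le

/-- No arc is longer than `1.02π`. -/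
theorem arc_le (hs : 0 < s) (hsp : ∀ v : ℂ, ‖v‖ = 1 →
      ∃ p ∈ K ∩ sphere x s, -(3 / 100 * s) ≤ ⟪p - x, v⟫) {a b : ℝ}
    (hfree : IsFreeArc K x s a b) : b - a ≤ 51 / 50 * π := by
  by_contra hlt
  rw [not_le] at hlt
  set c := (a + b) / 2 with hc
  obtain ⟨p, hp, hpv⟩ := hsp _ (Complex.norm_exp_ofReal_mul_I c)
  obtain ⟨φ, hφ, rfl⟩ := exists_angle hs hp.2 b
  have hφb : φ ≤ a + 2 * π := by
    by_contra hgt
    rw [not_le] at hgt
    refine hfree.2.2 (φ - 2 * π) ⟨by linarith, by linarith [hφ.2]⟩ ?_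
    rw [(periodic_circleMap x s).sub_eq]
    exact hp.1
  have hin : ⟪circleMap x s φ - x, Complex.exp (c * Complex.I)⟫ = s * Real.cos (φ - c) := by
    rw [circleMap_sub_center, circleMap_zero, ← Complex.real_smul, real_inner_smul_left,
      Complex.inner, Real.cos_sub]
    congr 1
    simp only [Complex.mul_re, Complex.conj_re, Complex.conj_im, Complex.exp_ofReal_mul_I_re,
      Complex.exp_ofReal_mul_I_im]
    ring
  rw [hin] at hpv
  have hsin : 3 / 100 < Real.sin (π / 100) := by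
    have h3 := Real.pi_gt_three
    have h4 := Real.pi_lt_four
    have h5 := Real.sin_lt_sin_of_lt_of_le_pi_div_two (x := (0.0306 : ℝ)) (y := π / 100)
      (by linarith [Real.pi_pos]) (by linarith [Real.pi_pos]) (by linarith [Real.pi_gt_d2])
    have h6 := Real.sin_gt_sub_cube (x := (0.0306 : ℝ)) (by norm_num)
    norm_num at h6 h5 ⊢
    linarith
  have hcos : Real.cos (φ - c) < -(3 / 100) := by
    have key : ∀ y ∈ Ioc (51 / 100 * π) π, Real.cos y < -(3 / 100) := by
      intro y hy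
      have h1 := Real.cos_lt_cos_of_nonneg_of_le_pi (x := 51 / 100 * π) (y := y)
        (by positivity) hy.2 hy.1
      rw [show 51 / 100 * π = π / 100 + π / 2 by ring, Real.cos_add_pi_div_two] at h1
      linarith
    rcases le_total (φ - c) π with h | h
    · exact key _ ⟨by rw [hc]; linarith [hφ.1], h⟩
    · rw [← Real.cos_two_pi_sub]
      exact key _ ⟨by rw [hc]; linarith, by linarith⟩
  nlinarith [mul_lt_mul_of_pos_left hcos hs]

/-- A sectored circle: arcs of opening at most `1.02π`, with different labels. -/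
theorem exists_arcs (hs : 0 < s) (h : Sectored K x s) :
    ∃ t m, IsPartition K x s t m ∧ (∀ i < m, t (i + 1) - t i ≤ 51 / 50 * π) ∧
      ∃ σ : ℂ → Fin 3, ContinuousOn σ (closedBall x s \ K) ∧ ∃ c : ℕ → Fin 3,
        (∀ i < m, ∀ θ ∈ Ioo (t i) (t (i + 1)), σ (circleMap x s θ) = c i) ∧
        ∀ i < m, ∀ j < m, c i = c j → i = j := by
  obtain ⟨p, hp, -⟩ := h.spread 1 norm_one
  obtain ⟨t, m, ht⟩ := exists_partition hs h.fin ⟨p, hp⟩
  obtain ⟨σ, hσ, hsep⟩ := h.label
  refine ⟨t, m, ht, fun i hi => arc_le hs h.spread (ht.2.2 i hi).1, σ, hσ,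
    fun i => σ (circleMap x s ((t i + t (i + 1)) / 2)), fun i hi θ hθ => ?_, ?_⟩
  · have hmaps : MapsTo (circleMap x s) (Ioo (t i) (t (i + 1))) (closedBall x s \ K) :=
      fun y hy => ⟨sphere_subset_closedBall (circleMap_mem_sphere x hs.le y),
        (ht.2.2 i hi).1.2.2 y hy⟩
    exact isPreconnected_Ioo.constant (hσ.comp (continuous_circleMap x s).continuousOn hmaps) hθ
      ⟨by linarith [(ht.2.2 i hi).1.1], by linarith [(ht.2.2 i hi).1.1]⟩
  · intro i hi j hj hij
    by_contra hne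
    have hmid : ∀ k < m, (t k + t (k + 1)) / 2 ∈ Ioo (t k) (t (k + 1)) := fun k hk =>
      ⟨by linarith [(ht.2.2 k hk).1.1], by linarith [(ht.2.2 k hk).1.1]⟩
    have hmem : ∀ k < m, circleMap x s ((t k + t (k + 1)) / 2) ∈ sphere x s \ K := fun k hk =>
      ⟨circleMap_mem_sphere x hs.le _, (ht.2.2 k hk).1.2.2 _ (hmid k hk)⟩
    set C := connectedComponentIn (sphere x s \ K) (circleMap x s ((t i + t (i + 1)) / 2))
    set A := circleMap x s '' Icc (t i) (t (i + 1))
    set B := circleMap x s '' (Icc (t 0) (t i) ∪ Icc (t (i + 1)) (t m))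
    have hAc : IsClosed A := (isCompact_Icc.image (continuous_circleMap x s)).isClosed
    have hBc : IsClosed B :=
      ((isCompact_Icc.union isCompact_Icc).image (continuous_circleMap x s)).isClosed
    have hcov : C ⊆ A ∪ B := by
      intro y hy
      have hys := (connectedComponentIn_subset _ _ hy).1
      obtain ⟨θ, hθ, rfl⟩ := exists_angle hs hys (t 0)
      rw [← ht.2.1] at hθ
      rcases le_or_gt θ (t i) with h1 | h1
      · exact Or.inr ⟨θ, Or.inl ⟨hθ.1, h1⟩, rfl⟩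
      rcases le_or_gt θ (t (i + 1)) with h2 | h2
      · exact Or.inl ⟨θ, ⟨h1.le, h2⟩, rfl⟩
      · exact Or.inr ⟨θ, Or.inr ⟨h2.le, hθ.2.le⟩, rfl⟩
    have hCA : (C ∩ A).Nonempty := ⟨_, mem_connectedComponentIn (hmem i hi),
      ⟨_, Ioo_subset_Icc_self (hmid i hi), rfl⟩⟩
    have hCB : (C ∩ B).Nonempty := by
      refine ⟨_, hsep _ (hmem i hi) _ (hmem j hj) hij, _, ?_, rfl⟩
      rcases lt_or_gt_of_ne hne with h1 | h1
      · exact Or.inr ⟨(partition_le ht (Nat.succ_le_of_lt h1) hj.le).trans (hmid j hj).1.le,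
          (hmid j hj).2.le.trans (partition_le ht (Nat.succ_le_of_lt hj) le_rfl)⟩
      · exact Or.inl ⟨(partition_le ht (Nat.zero_le j) hj.le).trans (hmid j hj).1.le,
          (hmid j hj).2.le.trans (partition_le ht (Nat.succ_le_of_lt h1) hi.le)⟩
    obtain ⟨y, hyC, ⟨θ, hθ, rfl⟩, φ, hφ, he⟩ :=
      isPreconnected_closed_iff.1 isPreconnected_connectedComponentIn A B hAc hBc hcov hCA hCB
    have hyK := (connectedComponentIn_subset _ _ hyC).2
    have hne1 : θ ≠ t i := fun e => hyK (e ▸ (ht.2.2 i hi).2)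
    have hne2 : θ ≠ t (i + 1) := fun e => by
      rcases eq_or_lt_of_le (Nat.succ_le_of_lt hi) with h1 | h1
      · rw [Nat.succ_eq_add_one] at h1
        rw [e, h1, ht.2.1, periodic_circleMap x s] at hyK
        exact hyK (ht.2.2 0 ht.1).2
      · exact hyK (e ▸ (ht.2.2 (i + 1) h1).2)
    have hθ' : θ ∈ Ioo (t i) (t (i + 1)) :=
      ⟨lt_of_le_of_ne hθ.1 (Ne.symm hne1), lt_of_le_of_ne hθ.2 hne2⟩
    have h0i := partition_le ht (Nat.zero_le i) hi.le
    have him := partition_le ht (Nat.succ_le_of_lt hi) le_rfl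
    have hm2 := ht.2.1
    rw [Nat.succ_eq_add_one] at him
    rcases lt_or_ge φ (t 0 + 2 * π) with hφ2 | hφ2
    · have heq : φ = θ := injOn_circleMap_of_abs_sub_le' hs.ne'
        (by linarith : t 0 + 2 * π - t 0 ≤ 2 * π)
        ⟨by rcases hφ with h | h <;> linarith [h.1, h.2, (ht.2.2 i hi).1.1], hφ2⟩
        ⟨by linarith [hθ'.1], by linarith [hθ'.2]⟩ he
      rcases hφ with h | h <;> linarith [h.1, h.2, hθ'.1, hθ'.2]
    · have hφm : φ = t 0 + 2 * π := by
        rcases hφ with h | h <;> linarith [h.1, h.2, (ht.2.2 i hi).1.1]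
      apply hyK
      rw [← he, hφm, periodic_circleMap x s]
      exact (ht.2.2 0 ht.1).2

end Vale.Agent.P128.Regularity.Decay
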