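import Vale.Agent.P128.Bridge.Decay
import Vale.Agent.P128.Regularity.Defs

/-!
# P128 regularity: the energy as a primitive of the circle energies
-/

open MeasureTheory Set Metric Filter
open scoped ENNReal Topology Real RealInnerProductSpace

noncomputable section

namespace Vale.Agent.P128.Regularity.Decay

open Vale.Agent.P128.Bridge

open Classical in
/-- The energy density, extended by zero. -/
def dens (U K : Set ℂ) (G : ℂ → ℂ) (y : ℂ) : ℝ :=
  (U \ K).piecewise (fun y => ‖G y‖ ^ 2) (fun _ => 0) y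

/-- The energy on the circle, per angle, as an extended number. -/
def circL (U K : Set ℂ) (G : ℂ → ℂ) (x : ℂ) (ρ : ℝ) : ℝ≥0∞ :=
  ∫⁻ θ in Ioo (-π) π, ENNReal.ofReal (dens U K G (circleMap x ρ θ))

/-- The radial density of the energy below radius `S`. -/
def radDens (U K : Set ℂ) (G : ℂ → ℂ) (x : ℂ) (S : ℝ) : ℝ → ℝ :=
  (Ioo 0 S).indicator fun ρ => ρ * (circL U K G x ρ).toReal

variable {U K : Set ℂ} {u : ℂ → ℝ} {G : ℂ → ℂ} {A M Λ : ℝ} {x : ℂ} {S : ℝ}

theorem dens_nonneg (U K : Set ℂ) (G : ℂ → ℂ) (y : ℂ) : 0 ≤ dens U K G y := by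
  classical
  unfold dens Set.piecewise
  split_ifs
  exacts [sq_nonneg _, le_rfl]

theorem dens_of_mem {y : ℂ} (hy : y ∈ U \ K) : dens U K G y = ‖G y‖ ^ 2 := by
  classical
  exact piecewise_eq_of_mem _ _ _ hy

theorem measurable_dens (h : IsAlmostMin U K u G A M Λ) : Measurable (dens U K G) := by
  classical
  exact ContinuousOn.measurable_piecewise (h.contGrad.norm.pow 2) continuousOn_const
    h.isOpen_compl.measurableSet

theorem measurable_circL (h : IsAlmostMin U K u G A M Λ) (x : ℂ) :
    Measurable (circL U K G x) :=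
  Measurable.lintegral_prod_right'
    (f := fun p : ℝ × ℝ => ENNReal.ofReal (dens U K G (circleMap x p.1 p.2)))
    ((measurable_dens h).comp (continuous_circleMap_uncurry x).measurable).ennreal_ofReal

variable (h : IsAlmostMin U K u G A M Λ) (hsub : closedBall x S ⊆ U)
include h hsub

/-- The disc in polar coordinates. -/
theorem energy_polar {t : ℝ} (ht : t ≤ S) :
    ∫⁻ y in ball x t \ K, ‖G y‖ₑ ^ 2 =
      ∫⁻ ρ in Ioo 0 t, ENNReal.ofReal ρ * circL U K G x ρ := by
  have hbU : ball x t ⊆ U := (ball_subset_ball ht).trans (ball_subset_closedBall.trans hsub)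
  have hm := (measurable_dens h).ennreal_ofReal
  have hbK : MeasurableSet (ball x t \ K) := measurableSet_ball.diff h.measurableSet
  have h1 : ∫⁻ y in ball x t \ K, ‖G y‖ₑ ^ 2 =
      ∫⁻ y in ball x t \ K, ENNReal.ofReal (dens U K G y) :=
    setLIntegral_congr_fun hbK fun y hy => by
      rw [dens_of_mem ⟨hbU hy.1, hy.2⟩, ENNReal.ofReal_pow (norm_nonneg _), ofReal_norm]
  have h2 : ∫⁻ y in ball x t \ K, ENNReal.ofReal (dens U K G y) =
      ∫⁻ y in ball x t, ENNReal.ofReal (dens U K G y) := by
    classical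
    rw [← lintegral_indicator hbK, ← lintegral_indicator measurableSet_ball]
    refine lintegral_congr fun y => ?_
    by_cases hy : y ∈ ball x t \ K
    · rw [indicator_of_mem hy, indicator_of_mem hy.1]
    · rw [indicator_of_notMem hy]
      by_cases hb : y ∈ ball x t
      · have hyK : y ∉ U \ K := fun h' => hy ⟨hb, h'.2⟩
        rw [indicator_of_mem hb, dens, piecewise_eq_of_notMem _ _ _ hyK, ENNReal.ofReal_zero]
      · rw [indicator_of_notMem hb]
  rw [h1, h2, lintegral_ball_polar hm.aemeasurable]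
  rfl

theorem lintegral_rad_lt_top {t : ℝ} (ht : t ≤ S) :
    ∫⁻ ρ in Ioo 0 t, ENNReal.ofReal ρ * circL U K G x ρ < ⊤ := by
  rw [← energy_polar h hsub ht]
  exact (weak_lt_top h ((closedBall_subset_closedBall ht).trans hsub)).1

theorem ae_circL_lt_top :
    ∀ᵐ ρ ∂volume.restrict (Ioo 0 S), circL U K G x ρ < ⊤ := by
  filter_upwards [ae_lt_top ((ENNReal.measurable_ofReal).mul (measurable_circL h x))
    (lintegral_rad_lt_top h hsub le_rfl).ne, ae_restrict_mem measurableSet_Ioo] with ρ hρ hρ'
  by_contra htop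
  rw [not_lt, top_le_iff] at htop
  simp [htop, ENNReal.mul_top, hρ'.1] at hρ

theorem lintegral_radDens {a b : ℝ} (ha : 0 ≤ a) (hb : b ≤ S) :
    ∫⁻ ρ in Ioo a b, ENNReal.ofReal (radDens U K G x S ρ) =
      ∫⁻ ρ in Ioo a b, ENNReal.ofReal ρ * circL U K G x ρ := by
  refine lintegral_congr_ae ?_
  filter_upwards [ae_mono (Measure.restrict_mono
    (show Ioo a b ⊆ Ioo 0 S from Ioo_subset_Ioo ha hb) le_rfl) (ae_circL_lt_top h hsub),
    ae_restrict_mem measurableSet_Ioo] with ρ hρ hρI
  have hρ' : ρ ∈ Ioo 0 S := Ioo_subset_Ioo ha hb hρI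
  rw [radDens, indicator_of_mem hρ', ENNReal.ofReal_mul hρ'.1.le, ENNReal.ofReal_toReal hρ.ne]

omit hsub in
theorem measurable_radDens : Measurable (radDens U K G x S) :=
  (measurable_id.mul (measurable_circL h x).ennreal_toReal).indicator measurableSet_Ioo

omit hsub h in
theorem radDens_nonneg (ρ : ℝ) : 0 ≤ radDens U K G x S ρ :=
  indicator_nonneg (fun _ hy => mul_nonneg hy.1.le ENNReal.toReal_nonneg) ρ

theorem integrable_radDens : Integrable (radDens U K G x S) := by
  rw [← integrableOn_iff_integrable_of_support_subset (s := Ioo 0 S) (fun ρ hρ => by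
    by_contra hn
    exact hρ (indicator_of_notMem hn _))]
  refine ⟨(measurable_radDens h).aestronglyMeasurable, ?_⟩
  rw [hasFiniteIntegral_iff_ofReal (Eventually.of_forall radDens_nonneg),
    lintegral_radDens h hsub le_rfl le_rfl]
  exact lintegral_rad_lt_top h hsub le_rfl

/-- The energy is the primitive of the radial density. -/
theorem dirEn_eq {t : ℝ} (ht0 : 0 ≤ t) (ht : t ≤ S) :
    dirEn K G x t = ∫ ρ in (0 : ℝ)..t, radDens U K G x S ρ := by
  rw [intervalIntegral.integral_of_le ht0, integral_Ioc_eq_integral_Ioo,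
    integral_eq_lintegral_of_nonneg_ae (Eventually.of_forall radDens_nonneg)
      (measurable_radDens h).aestronglyMeasurable, lintegral_radDens h hsub le_rfl ht, dirEn,
    energy_polar h hsub ht]

theorem dirEn_sub {a b : ℝ} (ha : 0 ≤ a) (hab : a ≤ b) (hb : b ≤ S) :
    dirEn K G x b - dirEn K G x a = ∫ ρ in Ioo a b, radDens U K G x S ρ := by
  have hi : ∀ c, IntervalIntegrable (radDens U K G x S) volume 0 c := fun c =>
    (integrable_radDens h hsub).intervalIntegrable
  rw [dirEn_eq h hsub (ha.trans hab) hb, dirEn_eq h hsub ha (hab.trans hb),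
    intervalIntegral.integral_interval_sub_left (hi _) (hi _), intervalIntegral.integral_of_le hab,
    integral_Ioc_eq_integral_Ioo]

theorem lintegral_radDens_le {a b : ℝ} (ha : 0 < a) (hab : a < b) (hb : b ≤ S) :
    ∫⁻ ρ in Ioo a b, ENNReal.ofReal (radDens U K G x S ρ) ≤
      ENNReal.ofReal (dirEn K G x b - dirEn K G x a) := by
  rw [dirEn_sub h hsub ha.le hab.le hb, ofReal_integral_eq_lintegral_ofReal
    ((integrable_radDens h hsub).integrableOn) (Eventually.of_forall radDens_nonneg)]

/-- The energy is differentiable at almost every radius. -/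
theorem ae_hasDerivAt : ∀ᵐ s ∂volume.restrict (Ioo 0 S),
    HasDerivAt (dirEn K G x) (radDens U K G x S s) s ∧ circL U K G x s < ⊤ := by
  have hd := LocallyIntegrable.ae_hasDerivAt_integral
    (integrable_radDens h hsub).locallyIntegrable
  filter_upwards [ae_restrict_of_ae hd, ae_circL_lt_top h hsub,
    ae_restrict_mem measurableSet_Ioo] with s hs hs' hsI
  refine ⟨(hs 0).congr_of_eventuallyEq ?_, hs'⟩
  filter_upwards [Ioo_mem_nhds hsI.1 hsI.2] with t ht
  exact dirEn_eq h hsub ht.1.le ht.2.le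

omit hsub in
/-- Closed and open discs have the same energy. -/
theorem dball_eq (hsub : closedBall x S ⊆ U) {t : ℝ} (ht : t ≤ S) :
    dball K G x t = ENNReal.ofReal (dirEn K G x t) := by
  rw [dirEn, ENNReal.ofReal_toReal (weak_lt_top h
    ((closedBall_subset_closedBall ht).trans hsub)).1.ne]
  refine setLIntegral_congr ?_
  refine EventuallyEq.diff ?_ (EventuallyEq.refl _ K)
  refine ae_eq_set.2 ⟨?_, by rw [sdiff_eq_empty.2 ball_subset_closedBall, measure_empty]⟩
  rw [closedBall_sdiff_ball]
  exact Measure.addHaar_sphere volume x t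

theorem dirEn_mono {a b : ℝ} (hab : a ≤ b) (hb : b ≤ S) : dirEn K G x a ≤ dirEn K G x b :=
  ENNReal.toReal_mono (weak_lt_top h ((closedBall_subset_closedBall hb).trans hsub)).1.ne
    (lintegral_mono_set (sdiff_subset_sdiff_left (ball_subset_ball hab)))

end Vale.Agent.P128.Regularity.Decay
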