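import Vale.Agent.P128.Bridge.Decay
import Vale.Agent.P128.Regularity.Defs

/-!
# P128 regularity: the equation tested with a labelled cutoff `χ (u - μ ∘ σ)`
-/

open MeasureTheory Set Metric Filter
open scoped ENNReal NNReal Topology Real RealInnerProductSpace

noncomputable section

namespace Vale.Agent.P128.Regularity.Decay

open Vale.Agent.P128.Bridge

/-- The unit radial vector. -/
def rdir (x y : ℂ) : ℂ := ‖y - x‖⁻¹ • (y - x)

/-- The linear cutoff: one up to radius `s - d`, zero from radius `s` on. -/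
def lcut (x : ℂ) (s d : ℝ) (y : ℂ) : ℝ := max 0 (min 1 ((s - ‖y - x‖) / d))

/-- The radial flux density of the labelled function. -/
def fluxDens (u : ℂ → ℝ) (G : ℂ → ℂ) (x : ℂ) (σ : ℂ → Fin 3) (μ : Fin 3 → ℝ) (y : ℂ) : ℝ :=
  |u y - μ (σ y)| * |⟪G y, rdir x y⟫|

theorem norm_rdir_le (x y : ℂ) : ‖rdir x y‖ ≤ 1 := by
  rw [rdir, norm_smul, norm_inv, norm_norm]
  exact inv_mul_le_one

theorem lipschitzWith_lcut (x : ℂ) (s d : ℝ) : LipschitzWith (Real.nnabs d⁻¹) (lcut x s d) := by
  have h1 : LipschitzWith (Real.nnabs d⁻¹) fun y : ℂ => (s - ‖y - x‖) / d := by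
    refine LipschitzWith.of_dist_le_mul fun a b => ?_
    rw [Real.dist_eq, dist_eq_norm, Real.coe_nnabs, ← sub_div,
      show s - ‖a - x‖ - (s - ‖b - x‖) = -(‖a - x‖ - ‖b - x‖) by ring, abs_div, abs_neg, abs_inv,
      div_eq_inv_mul]
    refine mul_le_mul_of_nonneg_left ((abs_norm_sub_norm_le _ _).trans (le_of_eq ?_))
      (inv_nonneg.2 (abs_nonneg d))
    congr 1
    abel
  exact ((h1.const_min 1).const_max 0)

theorem lcut_mem (x : ℂ) (s d : ℝ) (y : ℂ) : lcut x s d y ∈ Icc (0 : ℝ) 1 :=
  ⟨le_max_left _ _, max_le zero_le_one (min_le_left _ _)⟩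

theorem hasFDerivAt_norm_sub {x y : ℂ} (hy : y ≠ x) :
    HasFDerivAt (fun z : ℂ => ‖z - x‖) (innerSL ℝ (rdir x y)) y := by
  have h0 : ‖y - x‖ ≠ 0 := norm_ne_zero_iff.2 (sub_ne_zero.2 hy)
  have h1 := (((hasFDerivAt_id (𝕜 := ℝ) y).sub_const x).norm_sq).sqrt (pow_ne_zero 2 h0)
  have he : (fun z : ℂ => ‖z - x‖) = fun z => Real.sqrt (‖z - x‖ ^ 2) := by
    funext z; rw [Real.sqrt_sq (norm_nonneg _)]
  rw [he]
  refine h1.congr_fderiv ?_
  ext w
  simp [rdir, Real.sqrt_sq (norm_nonneg (y - x))]
  field_simp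
  ring

variable {U K : Set ℂ} {u : ℂ → ℝ} {G : ℂ → ℂ} {A M Λ : ℝ} {x : ℂ} {s d : ℝ} {σ : ℂ → Fin 3}
  {μ : Fin 3 → ℝ}

theorem locally_eq (hd : 0 < d) (hσ : ContinuousOn σ (closedBall x s \ K))
    {y : ℂ} (hyK : y ∉ K) (hKo : IsOpen (U \ K)) (hyU : y ∈ U) :
    (fun z => lcut x s d z * (u z - μ (σ z))) =ᶠ[𝓝 y]
      fun z => lcut x s d z * (u z - μ (σ y)) := by
  have hout : ∀ z, z ∉ closedBall x s → lcut x s d z = 0 := fun z hz => by
    rw [mem_closedBall, dist_eq_norm, not_le] at hz
    refine max_eq_left ((min_le_right _ _).trans ?_)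
    exact div_nonpos_of_nonpos_of_nonneg (by linarith) hd.le
  by_cases hy : y ∈ closedBall x s
  · have hev : ∀ᶠ z in 𝓝 y, z ∈ closedBall x s \ K → σ z = σ y :=
      eventually_nhdsWithin_iff.1 ((hσ y ⟨hy, hyK⟩).eventually_mem
        ((isOpen_discrete {σ y}).mem_nhds rfl))
    filter_upwards [hev, hKo.mem_nhds ⟨hyU, hyK⟩] with z hz hzU
    by_cases hzb : z ∈ closedBall x s
    · rw [hz ⟨hzb, hzU.2⟩]
    · rw [hout z hzb]; ring
  · filter_upwards [isClosed_closedBall.isOpen_compl.mem_nhds hy] with z hz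
    rw [hout z hz]; ring

variable (h : IsAlmostMin U K u G A M Λ) (hs : 0 < s) (hsub : closedBall x s ⊆ U)
  (hσ : ContinuousOn σ (closedBall x s \ K)) (hμ : ∀ k, ∀ y ∈ U \ K, |u y - μ k| ≤ M)
  (hd : 0 < d)

include h hσ hd in
theorem locallyLipschitz_test :
    LocallyLipschitzOn (U \ K) fun z => lcut x s d z * (u z - μ (σ z)) := by
  intro y hy
  have hcd : ContDiffAt ℝ 1 u y := by
    refine (ContDiffOn.contDiffAt ?_ (h.isOpen_compl.mem_nhds hy))
    refine (contDiffOn_succ_iff_fderiv_of_isOpen (n := 0) h.isOpen_compl).2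
      ⟨fun x hx => (h.hasGrad x hx).differentiableAt.differentiableWithinAt,
        fun h' => absurd h' (by simp), ?_⟩
    rw [contDiffOn_zero]
    exact ((innerSL ℝ).continuous.comp_continuousOn h.contGrad).congr
      fun x hx => (h.hasGrad x hx).fderiv
  obtain ⟨c, t, ht, hl⟩ := (hcd.sub (contDiffAt_const (c := μ (σ y)))).exists_lipschitzOnWith
  obtain ⟨cm, tm, htm, hlm⟩ := (contDiff_mul (𝕜 := ℝ) (𝔸 := ℝ) (n := 1)).contDiffAt
    (x := (lcut x s d y, u y - μ (σ y))) |>.exists_lipschitzOnWith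
  set p : ℂ → ℝ × ℝ := fun z => (lcut x s d z, u z - μ (σ y))
  have hp : LipschitzOnWith (max (Real.nnabs d⁻¹) c) p t :=
    (lipschitzWith_lcut x s d).lipschitzOnWith.prodMk hl
  have hpc : ContinuousAt p y :=
    (lipschitzWith_lcut x s d).continuous.continuousAt.prodMk
      (hcd.continuousAt.sub continuousAt_const)
  refine ⟨cm * max (Real.nnabs d⁻¹) c,
    {z | (fun z => lcut x s d z * (u z - μ (σ z))) z =
      (fun z => lcut x s d z * (u z - μ (σ y))) z} ∩ (t ∩ p ⁻¹' tm),
    nhdsWithin_le_nhds (inter_mem (locally_eq hd hσ hy.2 h.isOpen_compl hy.1)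
      (inter_mem ht (hpc.preimage_mem_nhds htm))), ?_⟩
  intro a ha b hb
  rw [ha.1, hb.1]
  exact (hlm.comp (hp.mono inter_subset_left) fun z hz => hz.2) ha.2 hb.2

include h hσ hd in
/-- The gradient of the test function off the two spheres. -/
theorem grad_test (hds : d < s) {y : ℂ} (hy : y ∈ U \ K) (h1 : ‖y - x‖ ≠ s)
    (h2 : ‖y - x‖ ≠ s - d) :
    gradOf (fun z => lcut x s d z * (u z - μ (σ z))) y =
      lcut x s d y • G y -
        (ball x s \ closedBall x (s - d)).indicator
          (fun z => (d⁻¹ * (u z - μ (σ z))) • rdir x z) y := by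
  have hloc := locally_eq (u := u) (μ := μ) hd hσ hy.2 h.isOpen_compl hy.1
  have hu : HasFDerivAt (fun z => u z - μ (σ y)) (innerSL ℝ (G y)) y :=
    (h.hasGrad y hy).sub_const _
  have hcont : ContinuousAt (fun z : ℂ => ‖z - x‖) y :=
    (continuous_id.sub continuous_const).norm.continuousAt
  refine gradOf_eq_of_hasFDerivAt (HasFDerivAt.congr_of_eventuallyEq ?_ hloc)
  rcases lt_or_gt_of_ne h2 with hlt | hgt
  · have hev : (fun z => lcut x s d z * (u z - μ (σ y))) =ᶠ[𝓝 y] fun z => u z - μ (σ y) := by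
      filter_upwards [hcont.eventually_mem (Iio_mem_nhds hlt)] with z hz
      have : 1 ≤ (s - ‖z - x‖) / d := by rw [le_div_iff₀ hd]; linarith [show ‖z - x‖ < s - d from hz]
      rw [lcut, min_eq_left this, max_eq_right zero_le_one, one_mul]
    have hc1 : lcut x s d y = 1 := by
      have : 1 ≤ (s - ‖y - x‖) / d := by rw [le_div_iff₀ hd]; linarith
      rw [lcut, min_eq_left this, max_eq_right zero_le_one]
    rw [indicator_of_notMem (fun hm => hm.2 (by rw [mem_closedBall, dist_eq_norm]; exact hlt.le)),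
      sub_zero, hc1, one_smul]
    exact hu.congr_of_eventuallyEq hev
  rcases lt_or_gt_of_ne h1 with hlt' | hgt'
  · have hev : (fun z => lcut x s d z * (u z - μ (σ y))) =ᶠ[𝓝 y]
        fun z => (s - ‖z - x‖) / d * (u z - μ (σ y)) := by
      filter_upwards [hcont.eventually_mem (Ioo_mem_nhds hgt hlt')] with z hz
      have h3 : (s - ‖z - x‖) / d ≤ 1 := by rw [div_le_one hd]; linarith [hz.1]
      have h4 : 0 ≤ (s - ‖z - x‖) / d := div_nonneg (by linarith [hz.2]) hd.le
      rw [lcut, min_eq_right h3, max_eq_right h4]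
    have hc1 : lcut x s d y = (s - ‖y - x‖) / d := by
      have h3 : (s - ‖y - x‖) / d ≤ 1 := by rw [div_le_one hd]; linarith
      have h4 : 0 ≤ (s - ‖y - x‖) / d := div_nonneg (by linarith) hd.le
      rw [lcut, min_eq_right h3, max_eq_right h4]
    have hyx : y ≠ x := fun he => by rw [he, sub_self, norm_zero] at hgt; linarith
    rw [indicator_of_mem (show y ∈ ball x s \ closedBall x (s - d) by
      simp only [Set.mem_sdiff, mem_ball, mem_closedBall, dist_eq_norm, not_le]
      exact ⟨hlt', hgt⟩), hc1]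
    refine ((((hasFDerivAt_norm_sub hyx).const_sub s).mul_const d⁻¹).mul hu).congr_fderiv ?_
      |>.congr_of_eventuallyEq (hev.trans (Eventually.of_forall fun z => by
        simp [div_eq_mul_inv]))
    ext w
    simp
    field_simp
    ring
  · have hev : (fun z => lcut x s d z * (u z - μ (σ y))) =ᶠ[𝓝 y] fun _ => (0 : ℝ) := by
      filter_upwards [hcont.eventually_mem (Ioi_mem_nhds hgt')] with z hz
      have : (s - ‖z - x‖) / d ≤ 0 :=
        div_nonpos_of_nonpos_of_nonneg (by linarith [show s < ‖z - x‖ from hz]) hd.le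
      rw [lcut, max_eq_left ((min_le_right _ _).trans this), zero_mul]
    have hc1 : lcut x s d y = 0 := by
      have : (s - ‖y - x‖) / d ≤ 0 := div_nonpos_of_nonpos_of_nonneg (by linarith) hd.le
      rw [lcut, max_eq_left ((min_le_right _ _).trans this)]
    rw [indicator_of_notMem (fun hm => by
      have := hm.1; rw [mem_ball, dist_eq_norm] at this; linarith), sub_zero, hc1, zero_smul,
      map_zero]
    exact (hasFDerivAt_const (0 : ℝ) y).congr_of_eventuallyEq hev

include h hs hsub hσ hμ hd in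
/-- The tested equation. -/
theorem shell_test (hds : d < s) :
    IntegrableOn (fluxDens u G x σ μ) ((ball x s \ closedBall x (s - d)) \ K) ∧
    dirEn K G x (s - d) ≤
      d⁻¹ * (∫ y in (ball x s \ closedBall x (s - d)) \ K, fluxDens u G x σ μ y) +
        π * Λ * s ^ 2 := by
  classical
  have hUK := h.isOpen_compl
  have hUKm := hUK.measurableSet
  set ψ : ℂ → ℝ := fun z => lcut x s d z * (u z - μ (σ z)) with hψ
  set φ : ℂ → ℝ := (U \ K).indicator ψ with hφ
  set Gφ : ℂ → ℂ := (U \ K).indicator (gradOf ψ) with hGφ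
  set Shell : Set ℂ := ball x s \ closedBall x (s - d) with hShell
  have hsob0 := isSobolevOn_of_locallyLipschitzOn hUK
    (locallyLipschitz_test (μ := μ) h hσ hd)
  have hsob : IsSobolevOn (U \ K) φ Gφ := by
    refine hsob0.congr hUKm ?_ ?_ <;> filter_upwards [ae_restrict_mem hUKm] with y hy
    · rw [hφ, indicator_of_mem hy]
    · rw [hGφ, indicator_of_mem hy]
  have hball : ∀ y, y ∉ closedBall x s → lcut x s d y = 0 := fun y hy => by
    rw [mem_closedBall, dist_eq_norm, not_le] at hy
    exact max_eq_left ((min_le_right _ _).trans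
      (div_nonpos_of_nonpos_of_nonneg (by linarith) hd.le))
  have hC : ∀ y ∉ closedBall x s, φ y = 0 ∧ Gφ y = 0 := by
    intro y hy
    refine ⟨by rw [hφ, indicator_apply]; simp [hψ, hball y hy], ?_⟩
    rw [hGφ, indicator_apply]
    split_ifs
    · refine gradOf_eq_of_hasFDerivAt ?_
      rw [map_zero]
      refine (hasFDerivAt_const (0 : ℝ) y).congr_of_eventuallyEq ?_
      filter_upwards [isClosed_closedBall.isOpen_compl.mem_nhds hy] with z hz
      simp [hψ, hball z hz]
    · rfl
  have hb : ∀ y, |φ y| ≤ M := fun y => by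
    rw [hφ, indicator_apply]
    split_ifs with hy
    · rw [hψ, abs_mul, abs_of_nonneg (lcut_mem x s d y).1]
      exact (mul_le_of_le_one_left (abs_nonneg _) (lcut_mem x s d y).2).trans (hμ _ y hy)
    · simpa using h.M_nonneg
  have hGm : AEStronglyMeasurable G (volume.restrict (U \ K)) :=
    h.contGrad.aestronglyMeasurable hUKm
  have hsets : closedBall x s ∩ (U \ K) = closedBall x s \ K := ext fun y =>
    ⟨fun hy => ⟨hy.1, hy.2.2⟩, fun hy => ⟨hy.1, hsub hy.1, hy.2⟩⟩
  have hfinC : ∫⁻ y in closedBall x s \ K, ‖G y‖ₑ ^ 2 < ⊤ :=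
    lt_of_le_of_lt le_self_add (h.finite _ (isCompact_closedBall x s) hsub)
  have hG2 : IntegrableOn (fun y => ‖G y‖ ^ 2) (closedBall x s ∩ (U \ K)) := by
    refine ⟨(hGm.mono_set inter_subset_right).norm.pow 2, ?_⟩
    rw [hasFiniteIntegral_iff_enorm]
    simp only [enorm_pow, enorm_norm]
    rw [hsets]
    exact hfinC
  set bd : ℂ → ℝ := fun y => 2 * ‖G y‖ ^ 2 + 2 * (M * d⁻¹) ^ 2 with hbd
  have hbdI : IntegrableOn bd (closedBall x s ∩ (U \ K)) :=
    (hG2.const_mul 2).add (integrableOn_const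
      ((measure_mono inter_subset_left).trans_lt measure_closedBall_lt_top).ne)
  have hbdI' : IntegrableOn ((closedBall x s).indicator bd) (U \ K) := by
    rw [IntegrableOn, integrable_indicator_iff measurableSet_closedBall, IntegrableOn,
      Measure.restrict_restrict measurableSet_closedBall]
    exact hbdI
  have hnull : ∀ᵐ y ∂volume.restrict (U \ K), ‖y - x‖ ≠ s ∧ ‖y - x‖ ≠ s - d := by
    refine ae_restrict_of_ae ?_
    have h1 := measure_eq_zero_iff_ae_notMem.1 (Measure.addHaar_sphere volume x s)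
    have h2 := measure_eq_zero_iff_ae_notMem.1 (Measure.addHaar_sphere volume x (s - d))
    filter_upwards [h1, h2] with y ha hb'
    exact ⟨fun e => ha (by simpa [dist_eq_norm] using e),
      fun e => hb' (by simpa [dist_eq_norm] using e)⟩
  have hgrad : ∀ᵐ y ∂volume.restrict (U \ K),
      Gφ y = lcut x s d y • G y -
        Shell.indicator (fun z => (d⁻¹ * (u z - μ (σ z))) • rdir x z) y := by
    filter_upwards [hnull, ae_restrict_mem hUKm] with y hy hyU
    rw [hGφ, indicator_of_mem hyU, grad_test h hσ hd hds hyU hy.1 hy.2]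
  have hnorm : ∀ᵐ y ∂volume.restrict (U \ K), ‖Gφ y‖ ^ 2 ≤ (closedBall x s).indicator bd y := by
    filter_upwards [hgrad, ae_restrict_mem hUKm] with y hy hyU
    by_cases hyb : y ∈ closedBall x s
    · rw [indicator_of_mem hyb, hy]
      have h1 : ‖lcut x s d y • G y - Shell.indicator
          (fun z => (d⁻¹ * (u z - μ (σ z))) • rdir x z) y‖ ≤ ‖G y‖ + M * d⁻¹ := by
        refine (norm_sub_le _ _).trans (add_le_add ?_ ?_)
        · rw [norm_smul, Real.norm_of_nonneg (lcut_mem x s d y).1]
          exact mul_le_of_le_one_left (norm_nonneg _) (lcut_mem x s d y).2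
        · by_cases hysh : y ∈ Shell
          · rw [indicator_of_mem hysh, norm_smul, Real.norm_eq_abs, abs_mul,
              abs_of_pos (inv_pos.2 hd)]
            refine (mul_le_of_le_one_right (by positivity) (norm_rdir_le x y)).trans ?_
            rw [mul_comm M]
            exact mul_le_mul_of_nonneg_left (hμ _ y hyU) (inv_pos.2 hd).le
          · rw [indicator_of_notMem hysh, norm_zero]
            exact mul_nonneg h.M_nonneg (inv_pos.2 hd).le
      simp only [hbd]
      nlinarith [pow_le_pow_left₀ (norm_nonneg _) h1 2, sq_nonneg (‖G y‖ - M * d⁻¹)]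
    · rw [indicator_of_notMem hyb, (hC y hyb).2]; simp
  have hGφm : AEStronglyMeasurable Gφ (volume.restrict (U \ K)) := hsob.2.1.aestronglyMeasurable
  have hφ2 : IntegrableOn (fun y => ‖Gφ y‖ ^ 2) (U \ K) :=
    hbdI'.mono' (hGφm.norm.pow 2) (hnorm.mono fun y hy => by
      rwa [Real.norm_eq_abs, abs_of_nonneg (sq_nonneg _)])
  have hgfin : ∫⁻ y in closedBall x s \ K, ‖Gφ y‖ₑ ^ 2 < ⊤ := by
    rw [← hsets]
    refine lt_of_le_of_lt ((lintegral_mono_set inter_subset_right).trans
      (le_of_eq (lintegral_congr fun y => ?_))) hφ2.2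
    simp [enorm_pow]
  have heqn := h.weakEq φ Gφ _ (isCompact_closedBall x s) hsub hsob ⟨M, hb⟩ hC hgfin
  -- right side
  have hvol : (volume (closedBall x s)).toReal = π * s ^ 2 := by
    rw [Complex.volume_closedBall, ENNReal.toReal_mul, ENNReal.toReal_pow,
      ENNReal.toReal_ofReal hs.le, ENNReal.coe_toReal, NNReal.coe_real_pi]
    ring
  have hrhs : A * ∫ y in U \ K, |φ y| ≤ π * Λ * s ^ 2 := by
    have h1 : ∫ y in U \ K, |φ y| ≤ M * (π * s ^ 2) := by
      rw [← hvol, ← setIntegral_eq_integral_of_forall_compl_eq_zero (s := closedBall x s)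
        (μ := volume.restrict (U \ K)) (f := fun y => |φ y|) fun y hy => by simp [(hC y hy).1]]
      have hfin : (volume.restrict (U \ K)) (closedBall x s) < ⊤ :=
        (Measure.restrict_apply_le _ _).trans_lt measure_closedBall_lt_top
      have h2 := norm_setIntegral_le_of_norm_le_const (f := fun y => |φ y|) hfin (C := M)
        fun y _ => by rw [Real.norm_eq_abs, abs_abs]; exact hb y
      rw [Real.norm_eq_abs] at h2
      exact ((le_abs_self _).trans h2).trans (mul_le_mul_of_nonneg_left (ENNReal.toReal_mono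
        measure_closedBall_lt_top.ne (Measure.restrict_apply_le _ _)) h.M_nonneg)
    calc A * ∫ y in U \ K, |φ y| ≤ A * (M * (π * s ^ 2)) :=
          mul_le_mul_of_nonneg_left h1 h.A_nonneg
      _ = A * M * (π * s ^ 2) := by ring
      _ ≤ Λ * (π * s ^ 2) := mul_le_mul_of_nonneg_right h.AM_le (by positivity)
      _ = _ := by ring
  -- the shell density
  have hShm : MeasurableSet Shell := measurableSet_ball.diff measurableSet_closedBall
  have hKm := h.measurableSet
  have hShU : Shell \ K ⊆ closedBall x s ∩ (U \ K) := fun y hy =>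
    ⟨ball_subset_closedBall hy.1.1, hsub (ball_subset_closedBall hy.1.1), hy.2⟩
  have hFI : IntegrableOn (fluxDens u G x σ μ) (Shell \ K) := by
    have hb1 : IntegrableOn (fun y => M * (1 + ‖G y‖ ^ 2)) (closedBall x s ∩ (U \ K)) :=
      ((integrableOn_const (C := (1 : ℝ)) ((measure_mono inter_subset_left).trans_lt
        measure_closedBall_lt_top).ne).add hG2).const_mul M
    refine Integrable.mono' (g := fun y => M * (1 + ‖G y‖ ^ 2)) (hb1.mono_set hShU) ?_ ?_
    · have hc : ContinuousOn (fluxDens u G x σ μ) (Shell \ K) := by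
        intro y hy
        have hyx : y ≠ x := by
          rintro rfl
          exact hy.1.2 (mem_closedBall_self (by linarith))
        have hyU : y ∈ U \ K := (hShU hy).2
        refine ((ContinuousWithinAt.sub (h.hasGrad y hyU).continuousAt.continuousWithinAt ?_).abs).mul
          ((((h.contGrad y hyU).mono fun z hz => (hShU hz).2).inner ?_).abs)
        · exact (continuous_of_discreteTopology (f := μ)).continuousAt.comp_continuousWithinAt
            ((hσ y ⟨ball_subset_closedBall hy.1.1, hy.2⟩).mono fun z hz =>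
              ⟨ball_subset_closedBall hz.1.1, hz.2⟩)
        · exact (((continuousAt_id.sub continuousAt_const).norm.inv₀
            (norm_ne_zero_iff.2 (sub_ne_zero.2 hyx))).smul
              (continuousAt_id.sub continuousAt_const)).continuousWithinAt
      exact hc.aestronglyMeasurable (hShm.diff hKm)
    · filter_upwards [ae_restrict_mem (hShm.diff hKm)] with y hy
      rw [Real.norm_eq_abs, fluxDens, abs_mul, abs_abs, abs_abs]
      have h1 : |⟪G y, rdir x y⟫| ≤ 1 + ‖G y‖ ^ 2 := by
        refine (abs_real_inner_le_norm _ _).trans ?_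
        refine (mul_le_of_le_one_right (norm_nonneg _) (norm_rdir_le x y)).trans ?_
        nlinarith [sq_nonneg (‖G y‖ - 1), norm_nonneg (G y)]
      exact mul_le_mul (hμ _ y (hShU hy).2) h1 (abs_nonneg _) h.M_nonneg
  refine ⟨hFI, ?_⟩
  set inn : ℂ → ℝ := (ball x (s - d)).indicator fun y => ‖G y‖ ^ 2 with hinn
  have hinnI : IntegrableOn inn (U \ K) := by
    rw [hinn, IntegrableOn, integrable_indicator_iff measurableSet_ball, IntegrableOn,
      Measure.restrict_restrict measurableSet_ball]
    exact hG2.mono_set fun y hy =>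
      ⟨ball_subset_closedBall (ball_subset_ball (by linarith) hy.1), hy.2⟩
  have hout : IntegrableOn (Shell.indicator (fluxDens u G x σ μ)) (U \ K) := by
    rw [IntegrableOn, integrable_indicator_iff hShm, IntegrableOn,
      Measure.restrict_restrict hShm]
    exact hFI.mono_set fun y hy => ⟨hy.1, hy.2.2⟩
  have hLI : IntegrableOn (fun y => ⟪G y, Gφ y⟫) (U \ K) := by
    refine Integrable.mono' hbdI' (hGm.inner hGφm) ?_
    filter_upwards [hnorm] with y hy
    by_cases hyb : y ∈ closedBall x s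
    · rw [indicator_of_mem hyb] at hy ⊢
      refine ((Real.norm_eq_abs _).le.trans (abs_real_inner_le_norm _ _)).trans ?_
      simp only [hbd] at hy ⊢
      nlinarith [sq_nonneg (‖G y‖ - ‖Gφ y‖), sq_nonneg (M * d⁻¹), sq_nonneg ‖G y‖]
    · rw [indicator_of_notMem hyb, (hC y hyb).2, inner_zero_right, norm_zero]
  have hle : ∫ y in U \ K, (inn y - d⁻¹ * Shell.indicator (fluxDens u G x σ μ) y) ≤
      ∫ y in U \ K, ⟪G y, Gφ y⟫ := by
    refine integral_mono_ae (hinnI.sub (hout.const_mul _)) hLI ?_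
    filter_upwards [hgrad] with y hy
    rw [hy, inner_sub_right, real_inner_smul_right, real_inner_self_eq_norm_sq]
    refine sub_le_sub ?_ ?_
    · simp only [hinn, indicator_apply]
      split_ifs with hyb
      · rw [mem_ball, dist_eq_norm] at hyb
        have : 1 ≤ (s - ‖y - x‖) / d := by rw [le_div_iff₀ hd]; linarith
        rw [lcut, min_eq_left this, max_eq_right zero_le_one, one_mul]
      · exact mul_nonneg (lcut_mem x s d y).1 (sq_nonneg _)
    · simp only [indicator_apply]
      split_ifs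
      · rw [real_inner_smul_right, fluxDens, mul_assoc, ← abs_mul]
        exact mul_le_mul_of_nonneg_left (le_abs_self _) (inv_pos.2 hd).le
      · simp
  rw [integral_sub hinnI (hout.const_mul _), integral_const_mul] at hle
  have hleft : ∫ y in U \ K, inn y = dirEn K G x (s - d) := by
    have hsb : ball x (s - d) ∩ (U \ K) = ball x (s - d) \ K := ext fun y =>
      ⟨fun hy => ⟨hy.1, hy.2.2⟩, fun hy =>
        ⟨hy.1, hsub (ball_subset_closedBall (ball_subset_ball (by linarith) hy.1)), hy.2⟩⟩
    rw [hinn, setIntegral_indicator measurableSet_ball, inter_comm, hsb, dirEn,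
      integral_eq_lintegral_of_nonneg_ae (Eventually.of_forall fun y => sq_nonneg _)
        ((hGm.mono_set (hsb ▸ inter_subset_right)).norm.pow 2)]
    congr 1
    exact lintegral_congr fun y => by rw [ENNReal.ofReal_pow (norm_nonneg _), ofReal_norm]
  have hright : ∫ y in U \ K, Shell.indicator (fluxDens u G x σ μ) y =
      ∫ y in Shell \ K, fluxDens u G x σ μ y := by
    rw [setIntegral_indicator hShm]
    congr 1
    refine congrArg _ (ext fun y => ⟨fun hy => ⟨hy.2, hy.1.2⟩, fun hy => ⟨(hShU hy).2, hy.1⟩⟩)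
  rw [hleft, hright] at hle
  linarith [(abs_le.1 (heqn.trans hrhs)).2]

end Vale.Agent.P128.Regularity.Decay
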