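import Vale.Agent.P128.Bridge.CircleTest
import Vale.Agent.P128.Circle.Wirtinger
import Vale.Agent.P128.Regularity.Decay.Arcs
import Vale.Agent.P128.Regularity.Decay.Radial
import Vale.Agent.P128.Regularity.Decay.Test

/-!
# P128 regularity: the flux inequality `D ≤ 0.51 s D' + π Λ s²` on a sectored circle
-/

open MeasureTheory Set Metric Filter
open scoped ENNReal NNReal Topology Real RealInnerProductSpace

noncomputable section

namespace Vale.Agent.P128.Regularity.Decay

open Vale.Agent.P128.Bridge

variable {U K : Set ℂ} {u : ℂ → ℝ} {G : ℂ → ℂ} {A M Λ : ℝ} {x : ℂ} {s : ℝ}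

open Classical in
/-- The flux density, extended by zero. -/
def fluxExt (K : Set ℂ) (u : ℂ → ℝ) (G : ℂ → ℂ) (x : ℂ) (s : ℝ) (σ : ℂ → Fin 3) (μ : Fin 3 → ℝ)
    (y : ℂ) : ℝ :=
  ((closedBall x s \ K) \ {x}).piecewise (fluxDens u G x σ μ) (fun _ => 0) y

/-- A nonnegative function on the shell in polar coordinates. -/
theorem shell_polar {f : ℂ → ℝ} (hf : Measurable f) (x : ℂ) {a b : ℝ} (ha : 0 ≤ a) :
    ∫⁻ y in ball x b \ closedBall x a, ENNReal.ofReal (f y) =
      ∫⁻ ρ in Ioo a b, ENNReal.ofReal ρ *
        ∫⁻ θ in Ioo (-π) π, ENNReal.ofReal (f (circleMap x ρ θ)) := by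
  have hS : MeasurableSet (ball x b \ closedBall x a) :=
    measurableSet_ball.diff measurableSet_closedBall
  have hI : MeasurableSet (Ioo a b) := measurableSet_Ioo
  rw [← lintegral_indicator hS, lintegral_polar (hf.ennreal_ofReal.indicator hS).aemeasurable x,
    ← lintegral_indicator measurableSet_Ioi, ← lintegral_indicator hI]
  refine lintegral_congr fun ρ => ?_
  by_cases hρ : 0 < ρ
  · rw [indicator_of_mem (show ρ ∈ Ioi (0 : ℝ) from hρ)]
    have hmem : ∀ θ, circleMap x ρ θ ∈ ball x b \ closedBall x a ↔ ρ ∈ Ioo a b := fun θ => by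
      simp [dist_eq_norm, circleMap_sub_center, abs_of_pos hρ, and_comm]
    by_cases hin : ρ ∈ Ioo a b
    · rw [indicator_of_mem hin]
      congr 1
      exact lintegral_congr fun θ => indicator_of_mem ((hmem θ).2 hin) _
    · rw [indicator_of_notMem hin]
      refine mul_eq_zero_of_right _ (lintegral_eq_zero_of_ae_eq_zero
        (Eventually.of_forall fun θ => indicator_of_notMem (fun h' => hin ((hmem θ).1 h')) _))
  · rw [indicator_of_notMem (fun h' : ρ ∈ Ioi (0 : ℝ) => hρ h'),
      indicator_of_notMem (fun h' : ρ ∈ Ioo a b => hρ (ha.trans_lt h'.1))]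

theorem shell_area (x : ℂ) {a b : ℝ} (ha : 0 ≤ a) (hab : a ≤ b) :
    (volume (ball x b \ closedBall x a)).toReal = π * (b ^ 2 - a ^ 2) := by
  have h1 : volume (closedBall x a) = ENNReal.ofReal a ^ 2 * NNReal.pi := Complex.volume_closedBall x a
  have h2 : volume (ball x b) = ENNReal.ofReal b ^ 2 * NNReal.pi := Complex.volume_ball x b
  have h3 : (ball x b : Set ℂ) =ᵐ[volume] closedBall x b := by
    refine ae_eq_set.2 ⟨by rw [sdiff_eq_empty.2 ball_subset_closedBall, measure_empty], ?_⟩
    rw [closedBall_sdiff_ball]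
    exact Measure.addHaar_sphere volume x b
  rw [measure_congr (show (ball x b \ closedBall x a : Set ℂ) =ᵐ[volume]
      (closedBall x b \ closedBall x a : Set ℂ) from h3.diff (EventuallyEq.refl _ _)),
    measure_sdiff (closedBall_subset_closedBall hab) measurableSet_closedBall.nullMeasurableSet
      measure_closedBall_lt_top.ne, Complex.volume_closedBall, Complex.volume_closedBall,
    ENNReal.toReal_sub_of_le (mul_le_mul_left (pow_le_pow_left₀ bot_le
      (ENNReal.ofReal_le_ofReal hab) 2) _) (ENNReal.mul_ne_top (ENNReal.pow_ne_top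
      ENNReal.ofReal_ne_top) ENNReal.coe_ne_top), ENNReal.toReal_mul, ENNReal.toReal_mul,
    ENNReal.toReal_pow, ENNReal.toReal_pow, ENNReal.toReal_ofReal ha,
    ENNReal.toReal_ofReal (ha.trans hab), ENNReal.coe_toReal, NNReal.coe_real_pi]
  ring

theorem rdir_circleMap (hs : 0 < s) (x : ℂ) (θ : ℝ) :
    rdir x (circleMap x s θ) = s⁻¹ • circleMap 0 s θ := by
  rw [rdir, circleMap_sub_center, norm_circleMap_zero, abs_of_pos hs]

/-- The two regularity facts on a free arc and the flux estimate there. -/
theorem arc_flux (h : IsAlmostMin U K u G A M Λ) (hs : 0 < s) (hsub : closedBall x s ⊆ U)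
    {a b : ℝ} (hfree : IsFreeArc K x s a b)
    (hint : ∀ c d : ℝ, IntervalIntegrable (fun θ => dens U K G (circleMap x s θ)) volume c d) :
    (IntervalIntegrable (fun θ => u (circleMap x s θ)) volume a b) ∧
    ∀ m : ℝ, m * (b - a) = ∫ θ in a..b, u (circleMap x s θ) →
      ∫ θ in a..b, |u (circleMap x s θ) - m| * |radl G x s θ| ≤
        (b - a) / (2 * π) * (s ^ 2 * ∫ θ in a..b, dens U K G (circleMap x s θ)) := by
  obtain ⟨hab, -, hK⟩ := hfree
  have hmem : ∀ θ ∈ Ioo a b, circleMap x s θ ∈ U \ K := fun θ hθ =>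
    ⟨hsub (sphere_subset_closedBall (circleMap_mem_sphere x hs.le θ)), hK θ hθ⟩
  have hGc : ContinuousOn (fun θ => G (circleMap x s θ)) (Ioo a b) :=
    h.contGrad.comp (continuous_circleMap x s).continuousOn hmem
  have hTc : ContinuousOn (tang G x s) (Ioo a b) :=
    hGc.inner (((continuous_circleMap 0 s).mul continuous_const).continuousOn)
  have hRc : ContinuousOn (radl G x s) (Ioo a b) :=
    hGc.inner (continuous_circleMap 0 s).continuousOn
  have hmI : ∀ {f : ℝ → ℝ}, ContinuousOn f (Ioo a b) →
      AEStronglyMeasurable f (volume.restrict (uIoc a b)) := fun hf => by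
    rw [uIoc_of_le hab.le, ← restrict_Ioo_eq_restrict_Ioc]
    exact hf.aestronglyMeasurable measurableSet_Ioo
  have hae : ∀ᵐ θ ∂volume.restrict (uIoc a b), θ ∈ Ioo a b := by
    rw [uIoc_of_le hab.le, ← restrict_Ioo_eq_restrict_Ioc]
    exact ae_restrict_mem measurableSet_Ioo
  have hsq : ∀ θ ∈ Ioo a b, tang G x s θ ^ 2 + radl G x s θ ^ 2 =
      s ^ 2 * dens U K G (circleMap x s θ) := fun θ hθ => by
    rw [dens_of_mem (hmem θ hθ), ← tang_sq_add]; ring
  have hdI := (hint a b).const_mul (s ^ 2)
  have hT2 : IntervalIntegrable (fun θ => tang G x s θ ^ 2) volume a b :=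
    hdI.mono_fun' (hmI (hTc.pow 2)) (hae.mono fun θ hθ => by
      beta_reduce
      rw [Real.norm_eq_abs, abs_of_nonneg (sq_nonneg _), ← hsq θ hθ]
      linarith [sq_nonneg (radl G x s θ)])
  have hR2 : IntervalIntegrable (fun θ => radl G x s θ ^ 2) volume a b :=
    hdI.mono_fun' (hmI (hRc.pow 2)) (hae.mono fun θ hθ => by
      beta_reduce
      rw [Real.norm_eq_abs, abs_of_nonneg (sq_nonneg _), ← hsq θ hθ]
      linarith [sq_nonneg (tang G x s θ)])
  have hT1 : IntervalIntegrable (tang G x s) volume a b :=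
    (hT2.add (intervalIntegrable_const (c := (1 : ℝ)))).mono_fun' (hmI hTc)
      (Eventually.of_forall fun θ => by
        beta_reduce
        rw [Real.norm_eq_abs]
        nlinarith [sq_nonneg (|tang G x s θ| - 1), sq_abs (tang G x s θ), abs_nonneg (tang G x s θ)])
  set c := (a + b) / 2 with hc
  have hcI : c ∈ Ioo a b := ⟨by rw [hc]; linarith, by rw [hc]; linarith⟩
  have hsubI : ∀ {p q : ℝ}, p ∈ Icc a b → q ∈ Icc a b →
      IntervalIntegrable (tang G x s) volume p q := fun hp hq =>
    hT1.mono_set (uIcc_subset_uIcc (uIcc_of_le hab.le ▸ hp) (uIcc_of_le hab.le ▸ hq))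
  set W : ℝ → ℝ := fun θ => u (circleMap x s c) + ∫ φ in c..θ, tang G x s φ with hW
  have hWu : ∀ θ ∈ Ioo a b, W θ = u (circleMap x s θ) := by
    intro θ hθ
    have hd : ∀ φ ∈ uIcc c θ, HasDerivAt (fun φ => u (circleMap x s φ)) (tang G x s φ) φ :=
      fun φ hφ => (h.hasGrad _ (hmem φ ((convex_Ioo a b).ordConnected.uIcc_subset hcI hθ hφ)))
        |>.comp_hasDerivAt φ (hasDerivAt_circleMap x s φ)
    simp only [hW]
    rw [intervalIntegral.integral_eq_sub_of_hasDerivAt hd
      (hsubI (Ioo_subset_Icc_self hcI) (Ioo_subset_Icc_self hθ))]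
    ring
  have hWc : ContinuousOn W (uIcc a b) :=
    continuousOn_const.add (intervalIntegral.continuousOn_primitive_interval'
      hT1 (uIcc_of_le hab.le ▸ Ioo_subset_Icc_self hcI))
  have hWeq : (fun θ => u (circleMap x s θ)) =ᵐ[volume.restrict (uIoc a b)] W :=
    hae.mono fun θ hθ => (hWu θ hθ).symm
  refine ⟨hWc.intervalIntegrable.congr_ae hWeq.symm, fun m hm => ?_⟩
  have hmW : ∫ θ in a..b, W θ = m * (b - a) := by
    rw [hm]
    exact (intervalIntegral.integral_congr_ae ((ae_restrict_iff' measurableSet_uIoc).1 hWeq)).symm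
  have hV : ∀ θ ∈ Icc a b, W θ - m = W a - m + ∫ φ in a..θ, tang G x s φ := fun θ hθ => by
    simp only [hW]
    rw [← intervalIntegral.integral_add_adjacent_intervals
      (hsubI (Ioo_subset_Icc_self hcI) (left_mem_Icc.2 hab.le))
      (hsubI (left_mem_Icc.2 hab.le) hθ)]
    ring
  have hwir := wirtinger_mean_zero (u := fun θ => W θ - m) hab hT1 hT2 hV (by
    rw [intervalIntegral.integral_sub hWc.intervalIntegrable intervalIntegrable_const,
      intervalIntegral.integral_const, hmW, smul_eq_mul]
    ring)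
  set D := b - a with hD
  have hD0 : 0 < D := sub_pos.2 hab
  have hV2 : IntervalIntegrable (fun θ => (W θ - m) ^ 2) volume a b :=
    ((hWc.sub continuousOn_const).pow 2).intervalIntegrable
  have hL : IntervalIntegrable (fun θ => |W θ - m| * |radl G x s θ|) volume a b :=
    (hV2.add hR2).mono_fun' ((((hWc.sub continuousOn_const).abs).intervalIntegrable.def'.1).mul
      ((continuous_abs.comp_aestronglyMeasurable (hmI hRc))))
      (Eventually.of_forall fun θ => by
        beta_reduce
        rw [Real.norm_eq_abs, abs_mul, abs_abs, abs_abs]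
        nlinarith [sq_nonneg (|W θ - m| - |radl G x s θ|), sq_abs (W θ - m),
          sq_abs (radl G x s θ), abs_nonneg (W θ - m), abs_nonneg (radl G x s θ)])
  calc ∫ θ in a..b, |u (circleMap x s θ) - m| * |radl G x s θ|
      = ∫ θ in a..b, |W θ - m| * |radl G x s θ| :=
        intervalIntegral.integral_congr_ae ((ae_restrict_iff' measurableSet_uIoc).1
          (hae.mono fun θ hθ => by rw [hWu θ hθ]))
    _ ≤ ∫ θ in a..b, (π / (2 * D) * (W θ - m) ^ 2 + D / (2 * π) * radl G x s θ ^ 2) := by
        refine intervalIntegral.integral_mono_on hab.le hL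
          ((hV2.const_mul _).add (hR2.const_mul _)) fun θ _ => ?_
        have e : π / (2 * D) * (W θ - m) ^ 2 + D / (2 * π) * radl G x s θ ^ 2 -
            |W θ - m| * |radl G x s θ| =
            (π * |W θ - m| - D * |radl G x s θ|) ^ 2 / (2 * D * π) := by
          rw [← sq_abs (W θ - m), ← sq_abs (radl G x s θ)]
          field_simp
          ring
        have : 0 ≤ (π * |W θ - m| - D * |radl G x s θ|) ^ 2 / (2 * D * π) := by positivity
        linarith
    _ = π / (2 * D) * (∫ θ in a..b, (W θ - m) ^ 2) +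
          D / (2 * π) * ∫ θ in a..b, radl G x s θ ^ 2 := by
        rw [intervalIntegral.integral_add (hV2.const_mul _) (hR2.const_mul _),
          intervalIntegral.integral_const_mul, intervalIntegral.integral_const_mul]
    _ ≤ π / (2 * D) * ((D / π) ^ 2 * ∫ θ in a..b, tang G x s θ ^ 2) +
          D / (2 * π) * ∫ θ in a..b, radl G x s θ ^ 2 :=
        add_le_add (mul_le_mul_of_nonneg_left hwir (by positivity)) le_rfl
    _ = D / (2 * π) * (∫ θ in a..b, tang G x s θ ^ 2 + radl G x s θ ^ 2) := by
        rw [intervalIntegral.integral_add hT2 hR2]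
        field_simp
    _ = _ := by
        rw [← intervalIntegral.integral_const_mul (s ^ 2)]
        congr 1
        exact intervalIntegral.integral_congr_ae ((ae_restrict_iff' measurableSet_uIoc).1
          (hae.mono fun θ hθ => hsq θ hθ))

variable {S : ℝ}

/-- **The flux inequality.** -/
theorem sector_flux (h : IsAlmostMin U K u G A M Λ) (hsub : closedBall x S ⊆ U)
    (hsS : s ∈ Ioo 0 S) (hD : HasDerivAt (dirEn K G x) (radDens U K G x S s) s)
    (hfin : circL U K G x s < ⊤) (hsec : Sectored K x s) :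
    dirEn K G x s ≤ 51 / 100 * s * radDens U K G x S s + π * Λ * s ^ 2 := by
  classical
  obtain ⟨hs, hsS'⟩ := hsS
  have hsubs : closedBall x s ⊆ U := (closedBall_subset_closedBall hsS'.le).trans hsub
  obtain ⟨t, m, ht, hΔ, σ, hσ, c, hc, hcinj⟩ := exists_arcs hs hsec
  have hM := h.M_nonneg
  set g := radDens U K G x S s with hg
  have hgval : g = s * (circL U K G x s).toReal := indicator_of_mem (mem_Ioo.2 ⟨hs, hsS'⟩) _
  -- integrability of the density on the circle
  set dn : ℝ → ℝ := fun θ => dens U K G (circleMap x s θ) with hdn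
  have hdnm : Measurable dn := (measurable_dens h).comp (continuous_circleMap x s).measurable
  have hper : Function.Periodic dn (2 * π) := fun θ => by simp only [hdn, periodic_circleMap x s θ]
  have hdnI : ∀ a b : ℝ, IntervalIntegrable dn volume a b := by
    have hi : IntegrableOn dn (Ioo (-π) π) :=
      ⟨hdnm.aestronglyMeasurable, (hasFiniteIntegral_iff_ofReal
        (Eventually.of_forall fun θ => dens_nonneg U K G _)).2 hfin⟩
    exact fun a b => hper.intervalIntegrable Real.two_pi_pos.ne' (t := -π) (by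
      rw [show -π + 2 * π = π by ring]
      exact (intervalIntegrable_iff_integrableOn_Ioo_of_le (by linarith [Real.pi_pos])).2 hi) a b
  have hdnval : ∫ θ in (-π)..π, dn θ = (circL U K G x s).toReal := by
    rw [intervalIntegral.integral_of_le (by linarith [Real.pi_pos]), integral_Ioc_eq_integral_Ioo,
      integral_eq_lintegral_of_nonneg_ae (Eventually.of_forall fun θ => dens_nonneg U K G _)
        hdnm.aestronglyMeasurable]
    rfl
  -- the constants
  have hmid : ∀ i < m, (t i + t (i + 1)) / 2 ∈ Ioo (t i) (t (i + 1)) := fun i hi =>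
    ⟨by linarith [(ht.2.2 i hi).1.1], by linarith [(ht.2.2 i hi).1.1]⟩
  set p₀ := circleMap x s ((t 0 + t (0 + 1)) / 2) with hp₀
  have hp₀U : p₀ ∈ U \ K := ⟨hsubs (sphere_subset_closedBall (circleMap_mem_sphere x hs.le _)),
    (ht.2.2 0 ht.1).1.2.2 _ (hmid 0 ht.1)⟩
  set mean : ℕ → ℝ := fun i => (∫ θ in (t i)..(t (i + 1)), u (circleMap x s θ)) / (t (i + 1) - t i)
    with hmean
  have harc := fun i (hi : i < m) => arc_flux h hs hsubs (ht.2.2 i hi).1 hdnI
  set μ : Fin 3 → ℝ := fun k => if hk : ∃ i, i < m ∧ c i = k then mean hk.choose else u p₀ with hμdef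
  have hμc : ∀ i < m, μ (c i) = mean i := fun i hi => by
    have hk : ∃ j, j < m ∧ c j = c i := ⟨i, hi, rfl⟩
    simp only [hμdef, dif_pos hk]
    rw [hcinj _ hk.choose_spec.1 i hi hk.choose_spec.2]
  have hμ : ∀ k, ∀ y ∈ U \ K, |u y - μ k| ≤ M := by
    intro k y hy
    simp only [hμdef]
    split_ifs with hk
    · obtain ⟨hi, -⟩ := hk.choose_spec
      set i := hk.choose
      have hlt := (ht.2.2 i hi).1.1
      have hb : ‖∫ θ in (t i)..(t (i + 1)), (u y - u (circleMap x s θ))‖ ≤
          M * |t (i + 1) - t i| := by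
        refine intervalIntegral.norm_integral_le_of_norm_le_const_ae ?_
        have hne : ∀ᵐ θ : ℝ, θ ≠ t (i + 1) := by simp [ae_iff]
        filter_upwards [hne] with θ hθne hθ
        rw [uIoc_of_le hlt.le] at hθ
        exact h.osc y hy _ ⟨hsubs (sphere_subset_closedBall (circleMap_mem_sphere x hs.le _)),
          (ht.2.2 i hi).1.2.2 θ ⟨hθ.1, lt_of_le_of_ne hθ.2 hθne⟩⟩
      rw [intervalIntegral.integral_sub intervalIntegrable_const (harc i hi).1,
        intervalIntegral.integral_const, smul_eq_mul, Real.norm_eq_abs,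
        abs_of_pos (sub_pos.2 hlt)] at hb
      have e : u y - mean i = ((t (i + 1) - t i) * u y -
          ∫ θ in (t i)..(t (i + 1)), u (circleMap x s θ)) / (t (i + 1) - t i) := by
        have : t (i + 1) - t i ≠ 0 := (sub_pos.2 hlt).ne'
        simp only [hmean]
        field_simp
      rw [e, abs_div, abs_of_pos (sub_pos.2 hlt), div_le_iff₀ (sub_pos.2 hlt)]
      exact hb
    · exact h.osc y hy p₀ hp₀U
  -- the extended densities
  set F := fluxExt K u G x s σ μ with hF
  set W : Set ℂ := (closedBall x s \ K) \ {x} with hWdef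
  have hWm : MeasurableSet W :=
    (measurableSet_closedBall.diff h.measurableSet).diff (measurableSet_singleton x)
  have hWU : ∀ y ∈ W, y ∈ U \ K := fun y hy => ⟨hsubs hy.1.1, hy.1.2⟩
  have hFc : ContinuousOn (fluxDens u G x σ μ) W := by
    intro y hy
    refine ((ContinuousWithinAt.sub (h.hasGrad y (hWU y hy)).continuousAt.continuousWithinAt
      ?_).abs).mul ((((h.contGrad y (hWU y hy)).mono fun z hz => hWU z hz).inner ?_).abs)
    · exact (continuous_of_discreteTopology (f := μ)).continuousAt.comp_continuousWithinAt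
        ((hσ y hy.1).mono fun z hz => hz.1)
    · exact (((continuousAt_id.sub continuousAt_const).norm.inv₀
        (norm_ne_zero_iff.2 (sub_ne_zero.2 hy.2))).smul
          (continuousAt_id.sub continuousAt_const)).continuousWithinAt
  have hFm : Measurable F := hFc.measurable_piecewise continuousOn_const hWm
  set H : ℂ → ℝ := fun y => M * (1 + dens U K G y) - F y with hHdef
  have hHm : Measurable H := ((measurable_dens h).const_add 1 |>.const_mul M).sub hFm
  have hFle : ∀ y, 0 ≤ F y ∧ F y ≤ M * (1 + dens U K G y) := by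
    intro y
    simp only [hF, fluxExt]
    by_cases hy : y ∈ W
    · rw [piecewise_eq_of_mem _ _ _ hy, fluxDens, dens_of_mem (hWU y hy)]
      refine ⟨mul_nonneg (abs_nonneg _) (abs_nonneg _), ?_⟩
      refine mul_le_mul (hμ _ y (hWU y hy)) ?_ (abs_nonneg _) hM
      refine (abs_real_inner_le_norm _ _).trans ?_
      refine (mul_le_of_le_one_right (norm_nonneg _) (norm_rdir_le x y)).trans ?_
      nlinarith [sq_nonneg (‖G y‖ - 1), norm_nonneg (G y)]
    · rw [piecewise_eq_of_notMem _ _ _ hy]
      exact ⟨le_rfl, mul_nonneg hM (by linarith [dens_nonneg U K G y])⟩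
  have hH0 : ∀ y, 0 ≤ H y := fun y => by
    simp only [hHdef]; linarith [(hFle y).2]
  -- the circle integral of `H` is a lower limit
  set HC : ℝ → ℝ≥0∞ := fun ρ => ∫⁻ θ in Ioo (-π) π, ENNReal.ofReal (H (circleMap x ρ θ)) with hHC
  have hbad : ∀ᵐ θ ∂volume.restrict (Ioo (-π) π), circleMap x s θ ∉ K := by
    have hf : (Ioo (-π) π ∩ circleMap x s ⁻¹' K).Finite := by
      refine Set.Finite.of_finite_image (f := circleMap x s) (hsec.fin.subset ?_)
        ((injOn_circleMap_of_abs_sub_le' (a := -π) (b := π) hs.ne' (by linarith)).mono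
          (inter_subset_left.trans Ioo_subset_Ico_self))
      rintro _ ⟨θ, hθ, rfl⟩
      exact ⟨hθ.2, circleMap_mem_sphere x hs.le θ⟩
    filter_upwards [ae_restrict_mem measurableSet_Ioo,
      ae_restrict_of_ae (measure_eq_zero_iff_ae_notMem.1 (hf.measure_zero volume))] with θ h1 h2
    exact fun hK => h2 ⟨h1, hK⟩
  have hlow : ∀ e : ℝ≥0∞, e < HC s → ∀ᶠ ρ in 𝓝[<] s, e ≤ HC ρ := by
    intro e he
    by_contra hcon
    obtain ⟨ρ, hρlim, hρe⟩ := exists_seq_forall_of_frequently (not_eventually.1 hcon)
    have hρ0 : ∀ᶠ n in atTop, ρ n ∈ Ioo 0 s :=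
      hρlim.eventually (Ioo_mem_nhdsLT hs)
    have hfat : HC s ≤ liminf (fun n => HC (ρ n)) atTop := by
      refine le_trans (le_of_eq (lintegral_congr_ae ?_)) (lintegral_liminf_le fun n =>
        (hHm.comp (continuous_circleMap x (ρ n)).measurable).ennreal_ofReal)
      filter_upwards [hbad] with θ hθ
      refine (Tendsto.liminf_eq (ENNReal.tendsto_ofReal ?_)).symm
      have hpW : circleMap x s θ ∈ W :=
        ⟨⟨sphere_subset_closedBall (circleMap_mem_sphere x hs.le θ), hθ⟩,
          circleMap_ne_center hs.ne'⟩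
      have hlimW : Tendsto (fun n => circleMap x (ρ n) θ) atTop (𝓝[W] circleMap x s θ) := by
        have hc1 : Continuous fun r : ℝ => circleMap x r θ := by unfold circleMap; fun_prop
        have hto := (hc1.tendsto s).comp (hρlim.mono_right nhdsWithin_le_nhds)
        refine tendsto_nhdsWithin_iff.2 ⟨hto, ?_⟩
        filter_upwards [hρ0, hto.eventually (h.isOpen_compl.mem_nhds (hWU _ hpW))] with n hn hnU
        refine ⟨⟨?_, hnU.2⟩, circleMap_ne_center hn.1.ne'⟩
        rw [mem_closedBall, dist_eq_norm, circleMap_sub_center, norm_circleMap_zero,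
          abs_of_pos hn.1]
        exact hn.2.le
      have hd : ContinuousWithinAt (fun y => M * (1 + ‖G y‖ ^ 2) - fluxDens u G x σ μ y) W
          (circleMap x s θ) :=
        ((((h.contGrad _ (hWU _ hpW)).mono fun z hz => hWU z hz).norm.pow 2).const_add 1
          |>.const_mul M).sub (hFc _ hpW)
      have hHW : ∀ y ∈ W, H y = M * (1 + ‖G y‖ ^ 2) - fluxDens u G x σ μ y := fun y hy => by
        simp only [hHdef, hF, fluxExt]
        rw [piecewise_eq_of_mem _ _ _ hy, dens_of_mem (hWU y hy)]
      rw [hHW _ hpW]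
      refine (hd.tendsto.comp hlimW).congr' ?_
      filter_upwards [(tendsto_nhdsWithin_iff.1 hlimW).2] with n hn
      exact (hHW _ hn).symm
    refine absurd (hfat.trans (liminf_le_of_frequently_le' ?_)) (not_le.2 he)
    exact Eventually.frequently (Eventually.of_forall fun n => (not_le.1 (hρe n)).le)
  -- integrals on the circle
  set Fc : ℝ → ℝ := fun θ => F (circleMap x s θ) with hFcdef
  have hFcI : ∀ a b : ℝ, IntervalIntegrable Fc volume a b := fun a b =>
    (((intervalIntegrable_const (c := (1 : ℝ))).add (hdnI a b)).const_mul M).mono_fun'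
      (hFm.comp (continuous_circleMap x s).measurable).aestronglyMeasurable
      (Eventually.of_forall fun θ => by
        beta_reduce
        rw [Real.norm_eq_abs, abs_of_nonneg (hFle _).1]; exact (hFle _).2)
  have hHval : HC s = ENNReal.ofReal
      (M * (2 * π + (circL U K G x s).toReal) - ∫ θ in (-π)..π, Fc θ) := by
    have hi : IntervalIntegrable (fun θ => H (circleMap x s θ)) volume (-π) π :=
      (((intervalIntegrable_const (c := (1 : ℝ))).add (hdnI _ _)).const_mul M).sub (hFcI _ _)
    have hπ : -π ≤ π := by linarith [Real.pi_pos]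
    simp only [hHC]
    rw [← ofReal_integral_eq_lintegral_ofReal
      ((intervalIntegrable_iff_integrableOn_Ioo_of_le hπ).1 hi)
      (Eventually.of_forall fun θ => hH0 _), ← integral_Ioc_eq_integral_Ioo,
      ← intervalIntegral.integral_of_le hπ]
    congr 1
    simp only [hHdef]
    rw [intervalIntegral.integral_sub (((intervalIntegrable_const (c := (1 : ℝ))).add (hdnI _ _)).const_mul M) (hFcI _ _),
      intervalIntegral.integral_const_mul,
      intervalIntegral.integral_add intervalIntegrable_const (hdnI _ _),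
      intervalIntegral.integral_const, smul_eq_mul, mul_one, hdnval]
    ring
  set Hs := (HC s).toReal with hHs_def
  -- the shell inequality
  have hineq : ∀ c' : ℝ, 0 ≤ c' → (∀ᶠ ρ in 𝓝[<] s, ENNReal.ofReal c' ≤ HC ρ) →
      dirEn K G x s ≤ π * Λ * s ^ 2 + (2 * π * s * M + M * g) - s * c' := by
    intro c' hc'0 hc'
    set Φ : ℝ → ℝ := fun v => dirEn K G x v - ((M * (π * (2 * s))) +
      M * ((dirEn K G x s - dirEn K G x v) / (s - v)) - v * c' + π * Λ * s ^ 2)
    have hevΦ : ∀ᶠ v in 𝓝[<] s, Φ v ≤ 0 := by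
      obtain ⟨v₀, hv₀, hv₀sub⟩ := mem_nhdsLT_iff_exists_Ioo_subset.1 hc'
      filter_upwards [Ioo_mem_nhdsLT (max_lt (show v₀ < s from hv₀) hs)] with v hv
      have hv0 : 0 < v := (le_max_right v₀ 0).trans_lt hv.1
      have hd0 : 0 < s - v := sub_pos.2 hv.2
      obtain ⟨hFI, hmain⟩ := shell_test h hs hsubs hσ hμ hd0 (by linarith)
      rw [show s - (s - v) = v by ring] at hFI hmain
      set Shell : Set ℂ := ball x s \ closedBall x v with hShell
      have hShm : MeasurableSet Shell := measurableSet_ball.diff measurableSet_closedBall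
      have hden : ∫⁻ y in Shell, ENNReal.ofReal (dens U K G y) =
          ENNReal.ofReal (dirEn K G x s - dirEn K G x v) := by
        rw [shell_polar (measurable_dens h) x hv0.le]
        refine (lintegral_radDens h hsub hv0.le hsS'.le).symm.trans ?_
        rw [dirEn_sub h hsub hv0.le hv.2.le hsS'.le, ofReal_integral_eq_lintegral_ofReal
          (integrable_radDens h hsub).integrableOn (Eventually.of_forall radDens_nonneg)]
      have hdI : IntegrableOn (dens U K G) Shell := by
        refine ⟨(measurable_dens h).aestronglyMeasurable, ?_⟩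
        rw [hasFiniteIntegral_iff_ofReal (Eventually.of_forall fun y => dens_nonneg U K G y), hden]
        exact ENNReal.ofReal_lt_top
      have hfinS : volume Shell ≠ ⊤ :=
        ((measure_mono sdiff_subset).trans_lt measure_ball_lt_top).ne
      have hPI : IntegrableOn (fun y => M * (1 + dens U K G y)) Shell :=
        ((integrableOn_const hfinS).add hdI).const_mul M
      have hFI' : IntegrableOn F Shell := hPI.mono' hFm.aestronglyMeasurable
        (Eventually.of_forall fun y => by
          rw [Real.norm_eq_abs, abs_of_nonneg (hFle y).1]; exact (hFle y).2)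
      have hfl : ∫ y in Shell \ K, fluxDens u G x σ μ y = ∫ y in Shell, F y := by
        have h1 : ∫ y in Shell, F y = ∫ y in Shell \ K, F y := by
          refine setIntegral_eq_of_subset_of_forall_sdiff_eq_zero hShm sdiff_subset fun y hy => ?_
          simp only [hF, fluxExt]
          refine piecewise_eq_of_notMem _ _ _ fun hyW => hy.2 ⟨hy.1, hyW.1.2⟩
        rw [h1]
        refine setIntegral_congr_fun (hShm.diff h.measurableSet) fun y hy => ?_
        have hyW : y ∈ W := ⟨⟨ball_subset_closedBall hy.1.1, hy.2⟩, fun he =>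
          hy.1.2 (by rw [show y = x from he]; exact mem_closedBall_self hv0.le)⟩
        simp only [hF, fluxExt]
        rw [piecewise_eq_of_mem _ _ _ hyW]
      have hHlow : v * c' * (s - v) ≤ ∫ y in Shell, H y := by
        rw [← ENNReal.ofReal_le_ofReal_iff (setIntegral_nonneg hShm fun y _ => hH0 y),
          ofReal_integral_eq_lintegral_ofReal (show Integrable H (volume.restrict Shell) from hPI.sub hFI')
            (Eventually.of_forall hH0),
          shell_polar hHm x hv0.le, ENNReal.ofReal_mul (mul_nonneg hv0.le hc'0), ← Real.volume_Ioo,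
          ← setLIntegral_const]
        refine setLIntegral_mono' measurableSet_Ioo fun ρ hρ => ?_
        rw [ENNReal.ofReal_mul hv0.le]
        refine mul_le_mul' (ENNReal.ofReal_le_ofReal hρ.1.le) (hv₀sub ⟨?_, hρ.2⟩)
        linarith [le_max_left v₀ 0, hv.1, hρ.1]
      have hsum : ∫ y in Shell, H y =
          M * (π * (s ^ 2 - v ^ 2) + (dirEn K G x s - dirEn K G x v)) - ∫ y in Shell, F y := by
        simp only [hHdef]
        rw [integral_sub hPI hFI', integral_const_mul, integral_add (integrableOn_const (C := (1 : ℝ)) hfinS) hdI,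
          setIntegral_const, smul_eq_mul, mul_one, Measure.real_def, shell_area x hv0.le hv.2.le,
          integral_eq_lintegral_of_nonneg_ae (Eventually.of_forall fun y => dens_nonneg U K G y)
            (measurable_dens h).aestronglyMeasurable, hden,
          ENNReal.toReal_ofReal (sub_nonneg.2 (dirEn_mono h hsub hv.2.le hsS'.le))]
      rw [hfl] at hmain
      have hFle' : ∫ y in Shell, F y ≤ M * (π * (s ^ 2 - v ^ 2) +
          (dirEn K G x s - dirEn K G x v)) - v * c' * (s - v) := by linarith
      have hdiv : (s - v)⁻¹ * ∫ y in Shell, F y ≤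
          M * (π * (2 * s)) + M * ((dirEn K G x s - dirEn K G x v) / (s - v)) - v * c' := by
        rw [inv_mul_le_iff₀ hd0]
        refine hFle'.trans ?_
        rw [show (s - v) * (M * (π * (2 * s)) + M * ((dirEn K G x s - dirEn K G x v) / (s - v)) -
            v * c') = M * (π * (2 * s)) * (s - v) + M * (dirEn K G x s - dirEn K G x v) -
            v * c' * (s - v) by field_simp]
        nlinarith [mul_nonneg (mul_nonneg hM Real.pi_nonneg) (mul_self_nonneg (s - v))]
      simp only [Φ]
      linarith
    have hslope : Tendsto (fun v => (dirEn K G x s - dirEn K G x v) / (s - v)) (𝓝[<] s) (𝓝 g) := by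
      refine ((hasDerivAt_iff_tendsto_slope.1 hD).mono_left
        (nhdsWithin_mono _ fun v hv => (ne_of_lt hv : v ≠ s))).congr fun v => ?_
      rw [slope_def_field, ← neg_sub s v, div_neg, ← neg_div, neg_sub]
    have hlim : Tendsto Φ (𝓝[<] s) (𝓝 (dirEn K G x s - ((M * (π * (2 * s))) + M * g - s * c' +
        π * Λ * s ^ 2))) :=
      (hD.continuousAt.tendsto.mono_left nhdsWithin_le_nhds).sub
        (((tendsto_const_nhds.add (hslope.const_mul M)).sub
          ((tendsto_id.mono_left nhdsWithin_le_nhds).mul_const c')).add_const _)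
    have := le_of_tendsto hlim hevΦ
    linarith
  have hFsum : s * ∫ θ in (-π)..π, Fc θ ≤ 51 / 100 * s * g := by
    have hperF : Function.Periodic Fc (2 * π) := fun θ => by
      simp only [hFcdef, periodic_circleMap x s θ]
    have e1 : ∫ θ in (-π)..π, Fc θ = ∫ θ in (t 0)..(t 0 + 2 * π), Fc θ := by
      rw [hperF.intervalIntegral_add_eq (t 0) (-π), show -π + 2 * π = π by ring]
    have e2 : ∫ θ in (-π)..π, dn θ = ∫ θ in (t 0)..(t 0 + 2 * π), dn θ := by
      rw [hper.intervalIntegral_add_eq (t 0) (-π), show -π + 2 * π = π by ring]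
    rw [hgval, ← hdnval, e1, e2, ← ht.2.1,
      ← intervalIntegral.sum_integral_adjacent_intervals (fun i _ => hFcI _ _),
      ← intervalIntegral.sum_integral_adjacent_intervals (fun i _ => hdnI _ _), Finset.mul_sum,
      show (51 / 100 * s * (s * ∑ i ∈ Finset.range m, ∫ θ in (t i)..(t (i + 1)), dn θ)) =
        ∑ i ∈ Finset.range m, 51 / 100 * (s ^ 2 * ∫ θ in (t i)..(t (i + 1)), dn θ) by
          rw [Finset.mul_sum, Finset.mul_sum]
          exact Finset.sum_congr rfl fun i _ => by ring]
    refine Finset.sum_le_sum fun i hi => ?_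
    rw [Finset.mem_range] at hi
    have hlt := (ht.2.2 i hi).1.1
    have hm' : mean i * (t (i + 1) - t i) = ∫ θ in (t i)..(t (i + 1)), u (circleMap x s θ) := by
      simp only [hmean]
      rw [div_mul_cancel₀ _ (sub_pos.2 hlt).ne']
    have heq : s * ∫ θ in (t i)..(t (i + 1)), Fc θ =
        ∫ θ in (t i)..(t (i + 1)), |u (circleMap x s θ) - mean i| * |radl G x s θ| := by
      rw [← intervalIntegral.integral_const_mul]
      refine intervalIntegral.integral_congr_ae ?_
      have hne : ∀ᵐ θ : ℝ, θ ≠ t (i + 1) := by simp [ae_iff]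
      filter_upwards [hne] with θ hθne hθ
      rw [uIoc_of_le hlt.le] at hθ
      have hθI : θ ∈ Ioo (t i) (t (i + 1)) := ⟨hθ.1, lt_of_le_of_ne hθ.2 hθne⟩
      have hpW : circleMap x s θ ∈ W :=
        ⟨⟨sphere_subset_closedBall (circleMap_mem_sphere x hs.le θ), (ht.2.2 i hi).1.2.2 θ hθI⟩,
          circleMap_ne_center hs.ne'⟩
      simp only [hFcdef, hF, fluxExt]
      rw [piecewise_eq_of_mem _ _ _ hpW, fluxDens, hc i hi θ hθI, hμc i hi, rdir_circleMap hs,
        real_inner_smul_right, abs_mul, abs_of_pos (inv_pos.2 hs), radl]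
      field_simp
    rw [heq]
    refine ((harc i hi).2 _ hm').trans ?_
    refine mul_le_mul_of_nonneg_right ?_ (mul_nonneg (sq_nonneg s)
      (intervalIntegral.integral_nonneg hlt.le fun θ _ => dens_nonneg U K G _))
    rw [div_le_iff₀ Real.two_pi_pos]
    linarith [hΔ i hi]
  have hHs : M * (2 * π + (circL U K G x s).toReal) - (∫ θ in (-π)..π, Fc θ) ≤ Hs := by
    rw [hHs_def, hHval, ENNReal.toReal_ofReal']
    exact le_max_left _ _
  refine le_of_forall_pos_le_add fun ε hε => ?_
  set c' := max 0 (Hs - ε / s) with hc'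
  have hev : ∀ᶠ ρ in 𝓝[<] s, ENNReal.ofReal c' ≤ HC ρ := by
    rcases eq_or_lt_of_le (le_max_left 0 (Hs - ε / s)) with h0 | h0
    · exact Eventually.of_forall fun ρ => by rw [hc', ← h0, ENNReal.ofReal_zero]; exact bot_le
    · refine hlow _ ((ENNReal.ofReal_lt_iff_lt_toReal h0.le ?_).2 (max_lt ?_ ?_))
      · rw [hHval]; exact ENNReal.ofReal_ne_top
      all_goals rcases lt_max_iff.1 h0 with h1 | h1 <;> linarith [div_pos hε hs]
  have h1 := hineq c' (le_max_left _ _) hev
  have hc2 : s * (Hs - ε / s) ≤ s * c' := mul_le_mul_of_nonneg_left (le_max_right _ _) hs.le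
  rw [mul_sub, mul_div_cancel₀ _ hs.ne'] at hc2
  have h2 := mul_le_mul_of_nonneg_left hHs hs.le
  rw [hgval] at *
  linarith

end Vale.Agent.P128.Regularity.Decay
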